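import Mathlib

/-!
# P110: Littlewood polynomials on the circle and their phase speed
-/

namespace Vale.Agent.P110

open Complex

/-- The value at `e^{iθ}` of the polynomial with coefficients `x 0, …, x (N-1)`. -/
noncomputable def lit (N : ℕ) (x : ℕ → ℝ) (θ : ℝ) : ℂ :=
  ∑ k ∈ Finset.range N, (x k : ℂ) * exp (((k : ℝ) * θ : ℝ) * I)

/-- The normalised phase speed `Re (z P'(z) / P(z)) / N` at `z = e^{iθ}`, i.e. `φ'(θ) / N`
when `P(e^{iθ}) = |P(e^{iθ})| e^{iφ(θ)}`. -/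
noncomputable def speed (N : ℕ) (x : ℕ → ℝ) (θ : ℝ) : ℝ :=
  ((∑ k ∈ Finset.range N, (k : ℂ) * (x k : ℂ) * exp (((k : ℝ) * θ : ℝ) * I)) /
    lit N x θ).re / N

end Vale.Agent.P110
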