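import Vale.Agent.P110.Trig

/-!
# P110: small integer polynomials off a gap

A monic real polynomial which beats the Chebyshev polynomial off a gap, and, by a pigeonhole
argument in triangular coordinates, a nonzero integer polynomial which is exponentially small
on the circle off the corresponding pair of arcs.
-/

namespace Vale.Agent.P110

open Polynomial Finset
open scoped Real

/-- The monic Chebyshev polynomial for the interval `[-2, 2]`. -/
noncomputable def cheb2 (a : ℕ) : ℝ[X] :=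
  if a = 0 then 1 else C 2 * (Chebyshev.T ℝ a).comp (C (1 / 2) * X)

lemma cheb2_props (a : ℕ) :
    (cheb2 a).Monic ∧ (cheb2 a).natDegree = a ∧ ∀ y : ℝ, |y| ≤ 2 → |(cheb2 a).eval y| ≤ 2 := by
  unfold cheb2
  split_ifs with ha
  · subst ha
    exact ⟨monic_one, natDegree_one, fun y _ => by simp⟩
  have hdeg : (Chebyshev.T ℝ (a : ℤ)).natDegree = a := by
    rw [Chebyshev.natDegree_T, Int.natAbs_natCast]
  have hh : (C (1 / 2 : ℝ) * X).natDegree = 1 := natDegree_C_mul_X _ (by norm_num)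
  refine ⟨?_, ?_, fun y hy => ?_⟩
  · rw [Monic, leadingCoeff_mul, leadingCoeff_C, leadingCoeff_comp (by rw [hh]; norm_num), hdeg,
      Chebyshev.leadingCoeff_T, leadingCoeff_C_mul_X, Int.natAbs_natCast]
    rw [show a = a - 1 + 1 by omega, Nat.add_sub_cancel, pow_succ, ← mul_assoc, ← mul_assoc,
      mul_assoc (2 : ℝ), ← mul_pow]
    norm_num
  · rw [natDegree_C_mul (by norm_num), natDegree_comp, hdeg, hh, mul_one]
  · rw [eval_mul, eval_C, eval_comp, eval_mul, eval_C, eval_X, abs_mul, abs_two]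
    have h : |1 / 2 * y| ≤ 1 := by rw [abs_mul]; norm_num; linarith
    linarith [Chebyshev.abs_eval_T_real_le_one (a : ℤ) h]

/-- Off a gap around an interior alternation point, some monic polynomial beats Chebyshev. -/
lemma exists_monic_lt_two {u v : ℝ} (hu : 0 < u) (huv : u < v) (hv : v < π) :
    ∃ n : ℕ, 0 < n ∧ ∃ Q : ℝ[X], Q.Monic ∧ Q.natDegree = n ∧ ∃ s : ℝ, 0 < s ∧ s < 2 ∧
      ∀ x : ℝ, |x| ≤ 1 → (x ≤ Real.cos v ∨ Real.cos u ≤ x) → |Q.eval (2 * x)| ≤ s := by
  classical
  obtain ⟨n, hn⟩ := exists_nat_gt (π / (v - u))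
  have hn0 : (0 : ℝ) < n := lt_trans (div_pos Real.pi_pos (by linarith)) hn
  have hnp : 0 < n := by exact_mod_cast hn0
  rw [div_lt_iff₀ (by linarith)] at hn
  set j := ⌊u * n / π⌋₊ + 1 with hj
  have hj1 : u * n / π < (j : ℝ) := by rw [hj]; push_cast; exact Nat.lt_floor_add_one _
  have hj2 : (j : ℝ) ≤ u * n / π + 1 := by
    rw [hj]; push_cast; linarith [Nat.floor_le (show 0 ≤ u * n / π by positivity)]
  rw [div_lt_iff₀ Real.pi_pos] at hj1
  rw [← sub_le_iff_le_add, le_div_iff₀ Real.pi_pos] at hj2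
  have hu' : u < j * π / n := by rw [lt_div_iff₀ hn0]; linarith
  have hv' : (j : ℝ) * π / n < v := by rw [div_lt_iff₀ hn0]; nlinarith
  have hjn : j ≤ n := by
    have : (j : ℝ) * π / n < π := lt_trans hv' hv
    rw [div_lt_iff₀ hn0] at this
    have h2 : (j : ℝ) < n := by nlinarith [Real.pi_pos]
    exact_mod_cast h2.le
  set xs : ℕ → ℝ := fun k => Real.cos (k * π / n) with hxs
  set S : Finset ℕ := (range (n + 1)).erase j with hS
  have hinj : Set.InjOn xs S := by
    intro a ha b hb hab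
    have hr : ∀ k ∈ (S : Set ℕ), (k : ℝ) * π / n ∈ Set.Icc 0 π := by
      intro k hk
      have hk' : k < n + 1 := mem_range.1 (mem_of_mem_erase (mem_coe.1 hk))
      have hk2 : (k : ℝ) ≤ n := by exact_mod_cast (by omega : k ≤ n)
      refine ⟨by positivity, ?_⟩
      rw [div_le_iff₀ hn0]
      nlinarith [Real.pi_pos]
    have := Real.injOn_cos (hr a ha) (hr b hb) hab
    rw [div_left_inj' hn0.ne', mul_left_inj' Real.pi_ne_zero] at this
    exact_mod_cast this
  set g : ℝ[X] := Chebyshev.T ℝ n with hg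
  set r : ℝ[X] := Lagrange.interpolate S xs (fun k => g.eval (xs k)) with hr
  have hSc : S.card = n := by
    rw [hS, card_erase_of_mem (mem_range.2 (by omega)), card_range, Nat.add_sub_cancel]
  have hrdeg : r.degree < (n : ℕ) := by
    have := Lagrange.degree_interpolate_lt (fun k => g.eval (xs k)) hinj
    rwa [hSc] at this
  set K : Set ℝ := Set.Icc (-1) 1 ∩ (Set.Iic (Real.cos v) ∪ Set.Ici (Real.cos u)) with hK
  have hKc : IsCompact K := isCompact_Icc.inter_right (isClosed_Iic.union isClosed_Ici)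
  have hgK : ∀ x ∈ K, |g.eval x| ≤ 1 := fun x hx =>
    Chebyshev.abs_eval_T_real_le_one _ (abs_le.2 ⟨hx.1.1, hx.1.2⟩)
  have hext : ∀ x ∈ K, |g.eval x| = 1 → g.eval x * r.eval x = 1 := by
    intro x hx h1
    obtain ⟨k, hk, hxk⟩ := (Chebyshev.abs_eval_T_real_eq_one_iff hnp.ne' x).1 h1
    have hkj : k ≠ j := by
      rintro rfl
      have a1 : Real.cos v < x := hxk ▸ Real.cos_lt_cos_of_nonneg_of_le_pi (by positivity) hv.le hv'
      have a2 : x < Real.cos u :=
        hxk ▸ Real.cos_lt_cos_of_nonneg_of_le_pi hu.le (by linarith) hu'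
      rcases hx.2 with h | h
      · exact absurd (Set.mem_Iic.1 h) (not_le.2 a1)
      · exact absurd (Set.mem_Ici.1 h) (not_le.2 a2)
    have hkS : k ∈ S := mem_erase.2 ⟨hkj, mem_range.2 (by omega)⟩
    have he : r.eval x = g.eval x := by
      rw [hxk]
      exact Lagrange.eval_interpolate_at_node (fun k => g.eval (xs k)) hinj hkS
    rw [he, ← abs_mul_abs_self, h1, one_mul]
  obtain ⟨R, hR⟩ := hKc.exists_bound_of_continuousOn r.continuous.continuousOn
  -- where `g * r` is small, `|g|` stays below one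
  set W : Set ℝ := K ∩ {x | g.eval x * r.eval x ≤ 1 / 2} with hW
  have hWc : IsCompact W :=
    hKc.inter_right (isClosed_le (g.continuous.mul r.continuous) continuous_const)
  obtain ⟨m, hm1, hm⟩ : ∃ m, m < 1 ∧ ∀ x ∈ W, |g.eval x| ≤ m := by
    rcases W.eq_empty_or_nonempty with h | h
    · exact ⟨0, one_pos, fun x hx => by simp [h] at hx⟩
    · obtain ⟨x0, hx0, hmax⟩ := hWc.exists_isMaxOn h g.continuous.abs.continuousOn
      refine ⟨|g.eval x0|, lt_of_le_of_ne (hgK x0 hx0.1) ?_, fun x hx => hmax hx⟩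
      intro h1
      have := hext x0 hx0.1 h1
      have := hx0.2
      simp only [Set.mem_ofPred_eq] at this
      linarith
  set e : ℝ := min ((1 - m) / (2 * (|R| + 1))) (1 / (2 * (|R| + 1) ^ 2)) with he
  have he0 : 0 < e := lt_min (div_pos (by linarith) (by positivity)) (by positivity)
  set f : ℝ[X] := g - C e * r with hf
  have hlt : ∀ x ∈ K, |f.eval x| < 1 := by
    intro x hx
    have hr1 : |r.eval x| ≤ |R| := by
      have := hR x hx
      rw [Real.norm_eq_abs] at this
      exact this.trans (le_abs_self R)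
    have e1 : e * (2 * (|R| + 1)) ≤ 1 - m := by
      rw [← le_div_iff₀ (by positivity)]; exact min_le_left _ _
    have e2 : e * (2 * (|R| + 1) ^ 2) ≤ 1 := by
      rw [← le_div_iff₀ (by positivity)]; exact min_le_right _ _
    simp only [hf, eval_sub, eval_mul, eval_C]
    by_cases hxW : g.eval x * r.eval x ≤ 1 / 2
    · refine lt_of_le_of_lt (abs_sub _ _) ?_
      rw [abs_mul, abs_of_pos he0]
      have := hm x ⟨hx, hxW⟩
      nlinarith [abs_nonneg (r.eval x)]
    · have hg2 : g.eval x ^ 2 ≤ 1 := by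
        have := pow_le_pow_left₀ (abs_nonneg _) (hgK x hx) 2
        rwa [sq_abs, one_pow] at this
      have hr2 : r.eval x ^ 2 ≤ (|R| + 1) ^ 2 := by
        rw [← sq_abs (r.eval x)]
        exact pow_le_pow_left₀ (abs_nonneg _) (by linarith) 2
      rw [abs_lt]
      have key : (g.eval x - e * r.eval x) ^ 2 < 1 := by
        have h3 : e ^ 2 * r.eval x ^ 2 ≤ e / 2 := by
          have := mul_le_mul_of_nonneg_left hr2 (sq_nonneg e)
          nlinarith
        nlinarith [not_le.1 hxW]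
      constructor <;> nlinarith
  obtain ⟨s0, hs0, hs01, hfs⟩ : ∃ s0, 0 < s0 ∧ s0 < 1 ∧ ∀ x ∈ K, |f.eval x| ≤ s0 := by
    rcases K.eq_empty_or_nonempty with h | h
    · exact ⟨1 / 2, by norm_num, by norm_num, fun x hx => by simp [h] at hx⟩
    · obtain ⟨x0, hx0, hmax⟩ := hKc.exists_isMaxOn h f.continuous.abs.continuousOn
      refine ⟨max (1 / 2) |f.eval x0|, lt_of_lt_of_le (by norm_num) (le_max_left _ _),
        max_lt (by norm_num) (hlt x0 hx0), fun x hx => (hmax hx).trans (le_max_right _ _)⟩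
  refine ⟨n, hnp, cheb2 n - C (2 * e) * r.comp (C (1 / 2) * X), ?_, ?_, 2 * s0, by linarith,
    by linarith, fun x hx hxv => ?_⟩
  rotate_left 2
  · have hxK : x ∈ K := ⟨abs_le.1 hx, hxv.imp (fun h => h) (fun h => h)⟩
    have := hfs x hxK
    simp only [hf, eval_sub, eval_mul, eval_C] at this
    rw [cheb2, if_neg hnp.ne', eval_sub, eval_mul, eval_mul, eval_comp, eval_comp]
    simp only [eval_mul, eval_C, eval_X, ← hg]
    rw [show (1 / 2 : ℝ) * (2 * x) = x by ring,
      show 2 * g.eval x - 2 * e * r.eval x = 2 * (g.eval x - e * r.eval x) by ring,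
      abs_mul, abs_two]
    linarith
  all_goals
    have hd : (C (2 * e) * r.comp (C (1 / 2) * X)).degree < (cheb2 n).degree := by
      rw [degree_eq_natDegree (cheb2_props n).1.ne_zero, (cheb2_props n).2.1]
      refine lt_of_le_of_lt ((degree_mul_le _ _).trans (add_le_add degree_C_le le_rfl)) ?_
      rw [zero_add]
      by_cases hr0 : r = 0
      · simp [hr0]
      refine lt_of_le_of_lt degree_le_natDegree ?_
      have h1 := natDegree_comp_le (p := r) (q := C (1 / 2 : ℝ) * X)
      rw [natDegree_C_mul_X _ (by norm_num), mul_one] at h1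
      exact_mod_cast lt_of_le_of_lt h1 ((natDegree_lt_iff_degree_lt hr0).2 hrdeg)
  · exact (cheb2_props n).1.sub_of_left hd
  · rw [natDegree_eq_of_degree_eq (degree_sub_eq_left_of_degree_lt hd), (cheb2_props n).2.1]

/-- Monic polynomials of every degree, exponentially small off the gap. -/
lemma exists_monic_seq {u v : ℝ} (hu : 0 < u) (huv : u < v) (hv : v < π) :
    ∃ n : ℕ, 0 < n ∧ ∃ σ C0 : ℝ, 0 < σ ∧ σ < 1 ∧ 0 < C0 ∧ ∃ q : ℕ → ℝ[X],
      (∀ k, (q k).Monic ∧ (q k).natDegree = k) ∧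
      ∀ k : ℕ, ∀ x : ℝ, |x| ≤ 1 → (x ≤ Real.cos v ∨ Real.cos u ≤ x) →
        |(q k).eval (2 * x)| ≤ C0 * σ ^ (k / n) := by
  obtain ⟨n, hn, Q, hQm, hQd, s, hs0, hs2, hQ⟩ := exists_monic_lt_two hu huv hv
  set σ := s / 2 with hσ
  have hσ0 : 0 < σ := by positivity
  have hlin : (C σ⁻¹ * Q).natDegree = n := by
    rw [natDegree_C_mul (by positivity), hQd]
  refine ⟨n, hn, σ, 2 * 2 ^ n, hσ0, by rw [hσ]; linarith, by positivity,
    fun k => C (σ ^ (k / n)) * (cheb2 (k / n)).comp (C σ⁻¹ * Q) * X ^ (k % n),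
    fun k => ?_, fun k x hx hxv => ?_⟩
  · obtain ⟨hm, hd, -⟩ := cheb2_props (k / n)
    have h1 : (C (σ ^ (k / n)) * (cheb2 (k / n)).comp (C σ⁻¹ * Q)).Monic := by
      rw [Monic, leadingCoeff_mul, leadingCoeff_C, leadingCoeff_comp (by omega), hm.leadingCoeff,
        one_mul, hd, leadingCoeff_mul, leadingCoeff_C, hQm.leadingCoeff, mul_one, ← mul_pow,
        mul_inv_cancel₀ hσ0.ne', one_pow]
    refine ⟨h1.mul (monic_X_pow _), ?_⟩
    rw [h1.natDegree_mul (monic_X_pow _), natDegree_X_pow, natDegree_C_mul (by positivity),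
      natDegree_comp, hd, hlin, Nat.div_add_mod']
  · simp only [eval_mul, eval_C, eval_comp, eval_pow, eval_X, abs_mul, abs_pow, abs_of_pos hσ0]
    have h1 : |σ⁻¹ * Q.eval (2 * x)| ≤ 2 := by
      rw [abs_mul, abs_inv, abs_of_pos hσ0, inv_mul_le_iff₀ hσ0]
      have := hQ x hx hxv
      rw [hσ]; linarith
    have h2 := (cheb2_props (k / n)).2.2 _ h1
    have h3 : |(2 : ℝ) * x| ^ (k % n) ≤ 2 ^ n := by
      refine le_trans (pow_le_pow_left₀ (abs_nonneg _) ?_ _)
        (pow_le_pow_right₀ (by norm_num) (Nat.mod_lt k hn).le)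
      rw [abs_mul, abs_two]; linarith
    calc _ ≤ σ ^ (k / n) * 2 * 2 ^ n :=
          mul_le_mul (mul_le_mul_of_nonneg_left h2 (by positivity))
            (by simpa [abs_mul] using h3) (by positivity) (by positivity)
      _ = _ := by ring

/-- Rounding in triangular coordinates: integer coefficients reach every unit box. -/
lemma exists_rounding (q : ℕ → ℝ[X]) (hq : ∀ k, (q k).Monic ∧ (q k).natDegree = k)
    (t : ℕ → ℝ) : ∀ D : ℕ, ∀ f : ℝ[X], (∀ i, D ≤ i → f.coeff i = 0) →
      ∃ P : ℤ[X], (∀ i, D ≤ i → P.coeff i = 0) ∧ ∃ u : ℕ → ℝ,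
        P.map (Int.castRingHom ℝ) + f = ∑ k ∈ range D, C (u k) * q k ∧
          ∀ k < D, t k ≤ u k ∧ u k < t k + 1 := by
  intro D
  induction D with
  | zero =>
    intro f hf
    refine ⟨0, by simp, fun _ => 0, ?_, by simp⟩
    have : f = 0 := Polynomial.ext fun i => by simpa using hf i (Nat.zero_le i)
    simp [this]
  | succ D ih =>
    intro f hf
    set c : ℤ := ⌈t D - f.coeff D⌉ with hc
    set w : ℝ := c + f.coeff D with hw
    have hw1 : t D ≤ w ∧ w < t D + 1 := by
      constructor <;> [linarith [Int.le_ceil (t D - f.coeff D)];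
        linarith [Int.ceil_lt_add_one (t D - f.coeff D)]]
    have hcoef : ∀ i, D ≤ i → (f + C (c : ℝ) * X ^ D - C w * q D).coeff i = 0 := by
      intro i hi
      simp only [coeff_sub, coeff_add, coeff_C_mul, coeff_X_pow]
      rcases eq_or_lt_of_le hi with h | h
      · have h1 : (q D).coeff D = 1 := by
          have := (hq D).1.coeff_natDegree
          rwa [(hq D).2] at this
        subst h
        rw [if_pos rfl, h1, hw]; ring
      · rw [if_neg (by omega), hf i h, coeff_eq_zero_of_natDegree_lt (by rw [(hq D).2]; exact h)]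
        ring
    obtain ⟨P, hP, u, hu, hu1⟩ := ih _ hcoef
    refine ⟨P + C c * X ^ D, fun i hi => ?_, Function.update u D w, ?_, fun k hk => ?_⟩
    · rw [coeff_add, hP i (by omega), coeff_C_mul_X_pow, if_neg (by omega), add_zero]
    · rw [sum_range_succ, Function.update_self]
      have e : ∑ k ∈ range D, C (Function.update u D w k) * q k = ∑ k ∈ range D, C (u k) * q k :=
        sum_congr rfl fun k hk => by rw [Function.update_of_ne (mem_range.1 hk).ne]
      rw [e, ← hu]
      simp only [Polynomial.map_add, Polynomial.map_mul, map_C, Polynomial.map_pow, map_X]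
      simp only [eq_intCast]
      ring
    · rcases Nat.lt_succ_iff_lt_or_eq.1 hk with h | h
      · rw [Function.update_of_ne h.ne]; exact hu1 k h
      · rw [h, Function.update_self]; exact hw1

lemma triangular_indep (q : ℕ → ℝ[X]) (hq : ∀ k, (q k).Monic ∧ (q k).natDegree = k) :
    ∀ (D : ℕ) (w : ℕ → ℝ), ∑ k ∈ range D, C (w k) * q k = 0 → ∀ k < D, w k = 0 := by
  intro D
  induction D with
  | zero => intro w _ k hk; omega
  | succ D ih =>
    intro w h k hk
    have hD : w D = 0 := by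
      have := congrArg (fun p : ℝ[X] => p.coeff D) h
      simp only [coeff_zero, finsetSum_coeff, coeff_C_mul] at this
      rw [sum_range_succ, sum_eq_zero fun i hi => by
        rw [coeff_eq_zero_of_natDegree_lt (by rw [(hq i).2]; exact mem_range.1 hi), mul_zero]] at this
      have h1 : (q D).coeff D = 1 := by
        have := (hq D).1.coeff_natDegree
        rwa [(hq D).2] at this
      simpa [h1] using this
    rcases Nat.lt_succ_iff_lt_or_eq.1 hk with hk' | hk'
    · rw [sum_range_succ, hD, C_0, zero_mul, add_zero] at h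
      exact ih w h k hk'
    · exact hk' ▸ hD

/-- Pigeonhole: small low coordinates, bounded high coordinates. -/
lemma exists_small_coords (q : ℕ → ℝ[X]) (hq : ∀ k, (q k).Monic ∧ (q k).natDegree = k)
    (h K : ℕ) (hh : 0 < h) (hK : 0 < K) :
    ∃ P : ℤ[X], P ≠ 0 ∧ (∀ i, 2 * h ≤ i → P.coeff i = 0) ∧ ∃ u : ℕ → ℝ,
      P.map (Int.castRingHom ℝ) = ∑ k ∈ range (2 * h), C (u k) * q k ∧
      (∀ k < h, |u k| ≤ 1 / K) ∧ ∀ k < 2 * h, |u k| ≤ K + 2 := by
  classical
  have hKr : (0 : ℝ) < K := by exact_mod_cast hK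
  let tgt : (Fin h → Fin (K + 1)) → ℕ → ℝ := fun T k =>
    if h' : h ≤ k ∧ k < 2 * h then ((T ⟨k - h, by omega⟩ : ℕ) : ℝ) else 0
  have hex := fun T => exists_rounding q hq (tgt T) (2 * h) 0 (fun i _ => by simp)
  choose P hP u hu hu1 using hex
  simp only [add_zero] at hu
  have hlow : ∀ T, ∀ k < h, 0 ≤ u T k ∧ u T k < 1 := fun T k hk => by
    have := hu1 T k (by omega)
    rwa [show tgt T k = 0 from dif_neg (by omega), zero_add] at this
  have hhigh : ∀ T (k : Fin h), ((T k : ℕ) : ℝ) ≤ u T (h + k) ∧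
      u T (h + k) < ((T k : ℕ) : ℝ) + 1 := fun T k => by
    have := hu1 T (h + k) (by omega)
    have e : tgt T (h + k) = ((T k : ℕ) : ℝ) := by
      simp only [tgt]
      rw [dif_pos (by omega)]
      congr 3
      exact Fin.ext (by simp)
    rwa [e] at this
  let F : (Fin h → Fin (K + 1)) → (Fin h → Fin K) := fun T k =>
    ⟨⌊u T k * K⌋₊, (Nat.floor_lt (mul_nonneg (hlow T k k.2).1 hKr.le)).2
      (by nlinarith [(hlow T k k.2).2])⟩
  obtain ⟨T, T', hne, hF⟩ := Fintype.exists_ne_map_eq_of_card_lt F (by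
    simp only [Fintype.card_fun, Fintype.card_fin]
    exact Nat.pow_lt_pow_left (Nat.lt_succ_self K) hh.ne')
  have hsum : (P T - P T').map (Int.castRingHom ℝ) =
      ∑ k ∈ range (2 * h), C (u T k - u T' k) * q k := by
    rw [Polynomial.map_sub, hu, hu, ← sum_sub_distrib]
    exact sum_congr rfl fun k _ => by rw [C_sub, sub_mul]
  refine ⟨P T - P T', ?_, fun i hi => by rw [coeff_sub, hP T i hi, hP T' i hi, sub_zero],
    fun k => u T k - u T' k, hsum, fun k hk => ?_, fun k hk => ?_⟩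
  · intro h0
    rw [h0, Polynomial.map_zero] at hsum
    apply hne
    funext k
    have e := triangular_indep q hq _ _ hsum.symm (h + k) (by omega)
    obtain ⟨a1, a2⟩ := hhigh T k
    obtain ⟨b1, b2⟩ := hhigh T' k
    refine Fin.ext ?_
    have c1 : ((T k : ℕ) : ℝ) < ((T' k : ℕ) : ℝ) + 1 := by linarith
    have c2 : ((T' k : ℕ) : ℝ) < ((T k : ℕ) : ℝ) + 1 := by linarith
    have d1 : (T k : ℕ) < (T' k : ℕ) + 1 := by exact_mod_cast c1
    have d2 : (T' k : ℕ) < (T k : ℕ) + 1 := by exact_mod_cast c2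
    omega
  · have e : ⌊u T k * K⌋₊ = ⌊u T' k * K⌋₊ := congrArg Fin.val (congrFun hF ⟨k, hk⟩)
    have e' : ((⌊u T k * K⌋₊ : ℕ) : ℝ) = (⌊u T' k * K⌋₊ : ℕ) := by rw [e]
    have a1 := Nat.floor_le (mul_nonneg (hlow T k hk).1 hKr.le)
    have a2 := Nat.lt_floor_add_one (u T k * K)
    have b1 := Nat.floor_le (mul_nonneg (hlow T' k hk).1 hKr.le)
    have b2 := Nat.lt_floor_add_one (u T' k * K)
    rw [abs_le, le_div_iff₀ hKr, ← neg_div, div_le_iff₀ hKr]
    constructor <;> nlinarith
  · have hb : ∀ T, 0 ≤ u T k ∧ u T k < K + 2 := fun T => by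
      rcases lt_or_ge k h with h' | h'
      · exact ⟨(hlow T k h').1, by linarith [(hlow T k h').2]⟩
      · have := hhigh T ⟨k - h, by omega⟩
        simp only [show h + (k - h) = k by omega] at this
        have hc : ((T ⟨k - h, by omega⟩ : ℕ) : ℝ) ≤ K := by
          exact_mod_cast Nat.lt_succ_iff.1 (T ⟨k - h, by omega⟩).2
        exact ⟨le_trans (Nat.cast_nonneg _) this.1, by linarith [this.2]⟩
    rw [abs_le]
    constructor <;> linarith [(hb T).1, (hb T).2, (hb T').1, (hb T').2]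

open Filter in
/-- A nonzero integer sequence, as small as needed (relative to its length) off the gap. -/
lemma exists_gap_annihilator {u v : ℝ} (hu : 0 < u) (huv : u < v) (hv : v < π) {η : ℝ}
    (hη : 0 < η) :
    ∃ m : ℕ, ∃ cz : ℕ → ℤ, (∃ j < m, cz j ≠ 0) ∧ ∃ κ : ℝ, 0 < κ ∧ (m : ℝ) * κ ≤ η ∧
      ∀ θ : ℝ, (Real.cos θ ≤ Real.cos v ∨ Real.cos u ≤ Real.cos θ) →
        ‖lit m (fun k => (cz k : ℝ)) θ‖ ≤ κ := by
  classical
  obtain ⟨n, hn, σ, C0, hσ0, hσ1, hC0, q, hq, hqb⟩ := exists_monic_seq hu huv hv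
  set ν := Real.sqrt σ with hν
  have hν0 : 0 < ν := Real.sqrt_pos.2 hσ0
  have hν1 : ν < 1 := by rw [hν, Real.sqrt_lt' one_pos]; simpa using hσ1
  have hνσ : ν ^ 2 = σ := Real.sq_sqrt hσ0.le
  have hev := ((tendsto_pow_const_mul_const_pow_of_lt_one 2 hν0.le hν1).const_mul
    (20 * (n : ℝ) ^ 2 * C0)).eventually (eventually_le_nhds (by rw [mul_zero]; exact hη))
  obtain ⟨j, hjη, hj0⟩ := (hev.and (eventually_gt_atTop 0)).exists
  have hjr : (0 : ℝ) < j := by exact_mod_cast hj0
  have hnr : (0 : ℝ) < n := by exact_mod_cast hn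
  set h := n * j with hh
  set K := ⌈(ν ^ j)⁻¹⌉₊ with hK
  have hK0 : 0 < K := Nat.ceil_pos.2 (by positivity)
  have hK1 : (ν ^ j)⁻¹ ≤ K := Nat.le_ceil _
  have hK2 : (K : ℝ) < (ν ^ j)⁻¹ + 1 := Nat.ceil_lt_add_one (by positivity)
  obtain ⟨P, hP0, hPd, w, hPw, hw1, hw2⟩ := exists_small_coords q hq h K (by positivity) hK0
  set D := 2 * h with hD
  have hD0 : 0 < D := by positivity
  set pz : ℤ[X] := ∑ i ∈ range D, C (P.coeff i) * (X ^ 2 + 1) ^ i * X ^ (D - 1 - i) with hpz
  have hpzd : pz.natDegree < 2 * D := by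
    refine lt_of_le_of_lt (natDegree_sum_le_of_forall_le _ _ (n := 2 * D - 1) fun i hi => ?_)
      (by omega)
    have hi' := mem_range.1 hi
    refine natDegree_mul_le.trans ?_
    have h1 : (C (P.coeff i) * (X ^ 2 + 1) ^ i).natDegree ≤ i * 2 := by
      refine (natDegree_C_mul_le _ _).trans (natDegree_pow_le.trans ?_)
      refine Nat.mul_le_mul_left i ?_
      compute_degree
    rw [natDegree_X_pow]
    omega
  have hPd' : (P.map (Int.castRingHom ℝ)).natDegree < D := by
    refine lt_of_le_of_lt (natDegree_map_le) ?_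
    by_contra hge
    exact hP0 (leadingCoeff_eq_zero.1 (hPd _ (not_lt.1 hge)))
  have hval : ∀ θ : ℝ, ‖lit (2 * D) (fun k => (pz.coeff k : ℝ)) θ‖ =
      |(P.map (Int.castRingHom ℝ)).eval (2 * Real.cos θ)| := by
    intro θ
    set z : ℂ := Complex.exp ((θ : ℂ) * Complex.I) with hz
    have hz1 : ‖z‖ = 1 := Complex.norm_exp_ofReal_mul_I θ
    have hz0 : z ≠ 0 := Complex.exp_ne_zero _
    have e1 : lit (2 * D) (fun k => (pz.coeff k : ℝ)) θ = aeval z pz := by
      rw [lit_eq_pw, aeval_eq_sum_range' hpzd, pw]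
      exact sum_congr rfl fun i _ => by rw [zsmul_eq_mul]; push_cast; rfl
    have e2 : z ^ 2 + 1 = ((2 * Real.cos θ : ℝ) : ℂ) * z := by
      push_cast
      rw [Complex.two_cos, add_mul, hz, ← Complex.exp_nat_mul, ← Complex.exp_add,
        ← Complex.exp_add]
      ring_nf
      simp [add_comm]
    have e3 : aeval z pz =
        z ^ (D - 1) * (((P.map (Int.castRingHom ℝ)).eval (2 * Real.cos θ) : ℝ) : ℂ) := by
      rw [eval_eq_sum_range' hPd', hpz, map_sum, Complex.ofReal_sum, mul_sum]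
      refine sum_congr rfl fun i hi => ?_
      have hi' := mem_range.1 hi
      simp only [map_mul, map_pow, map_add, map_one, aeval_X,
        eq_intCast, map_intCast, coeff_map, e2, mul_pow]
      push_cast
      rw [← show i + (D - 1 - i) = D - 1 by omega, pow_add, show i + (D - 1 - i) - i = D - 1 - i by
        omega]
      ring
    rw [e1, e3, norm_mul, norm_pow, hz1, one_pow, one_mul, Complex.norm_real, Real.norm_eq_abs]
  refine ⟨2 * D, fun k => pz.coeff k, ?_, 5 * (n : ℝ) * C0 * j * ν ^ j, by positivity, ?_,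
    fun θ hθ => ?_⟩
  · by_contra hno
    push Not at hno
    refine hP0 ((Polynomial.map_eq_zero_iff (Int.castRingHom ℝ).injective_int).1
      (eq_zero_of_infinite_isRoot _ ?_))
    refine ((Set.Icc_infinite (show (-2 : ℝ) < 2 by norm_num))).mono fun y hy => ?_
    have hy' := hval (Real.arccos (y / 2))
    rw [Real.cos_arccos (by linarith [hy.1]) (by linarith [hy.2]),
      mul_div_cancel₀ _ (two_ne_zero)] at hy'
    have : lit (2 * D) (fun k => (pz.coeff k : ℝ)) (Real.arccos (y / 2)) = 0 :=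
      sum_eq_zero fun k hk => by simp [hno k (mem_range.1 hk)]
    rw [this, norm_zero, eq_comm, abs_eq_zero] at hy'
    exact hy'
  · have e : (((2 * D : ℕ) : ℝ)) * (5 * (n : ℝ) * C0 * j * ν ^ j) =
        20 * (n : ℝ) ^ 2 * C0 * ((j : ℝ) ^ 2 * ν ^ j) := by
      rw [hD, hh]; push_cast; ring
    rw [e]; exact hjη
  · rw [hval θ, hPw, eval_finsetSum]
    refine (abs_sum_le_sum_abs _ _).trans ?_
    rw [hD, two_mul, sum_range_add]
    have hcos := Real.abs_cos_le_one θ
    have b1 : ∑ k ∈ range h, |(C (w k) * q k).eval (2 * Real.cos θ)| ≤ h * (C0 * ν ^ j) := by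
      refine (sum_le_card_nsmul _ _ (C0 * ν ^ j) fun k hk => ?_).trans (by simp)
      rw [eval_mul, eval_C, abs_mul]
      refine (mul_le_mul (hw1 k (mem_range.1 hk)) ((hqb k _ hcos hθ).trans
        (mul_le_of_le_one_right hC0.le (pow_le_one₀ hσ0.le hσ1.le))) (abs_nonneg _)
        (by positivity)).trans ?_
      rw [one_div, mul_comm]
      exact mul_le_mul_of_nonneg_left (inv_le_of_inv_le₀ (by positivity) hK1) hC0.le
    have b2 : ∑ k ∈ range h, |(C (w (h + k)) * q (h + k)).eval (2 * Real.cos θ)| ≤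
        h * (4 * C0 * ν ^ j) := by
      refine (sum_le_card_nsmul _ _ (4 * C0 * ν ^ j) fun k hk => ?_).trans (by simp)
      rw [eval_mul, eval_C, abs_mul]
      have hσk : σ ^ ((h + k) / n) ≤ σ ^ j := pow_le_pow_of_le_one hσ0.le hσ1.le (by
        rw [Nat.le_div_iff_mul_le hn, hh]; linarith [mul_comm n j])
      refine (mul_le_mul (hw2 _ (by have := mem_range.1 hk; omega)) ((hqb _ _ hcos hθ).trans
        (mul_le_mul_of_nonneg_left hσk hC0.le)) (abs_nonneg _) (by positivity)).trans ?_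
      rw [← hνσ, ← pow_mul, mul_comm 2 j, pow_mul, sq]
      have h1 : ν ^ j ≤ 1 := pow_le_one₀ hν0.le hν1.le
      have h2 : ((K : ℝ) + 2) * ν ^ j ≤ 4 := by
        have := mul_le_mul_of_nonneg_right hK2.le (pow_nonneg hν0.le j)
        rw [add_mul, inv_mul_cancel₀ (by positivity)] at this
        nlinarith
      have := mul_le_mul_of_nonneg_left h2 (mul_nonneg hC0.le (pow_nonneg hν0.le j))
      nlinarith
    refine (add_le_add b1 b2).trans (le_of_eq ?_)
    rw [hh]; push_cast; ring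

end Vale.Agent.P110
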