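import Vale.Agent.P110.Main
import Vale.Agent.P110.Fekete

/-!
# P110: the phase speed visits every band of values on every arc

For a nearly flat Littlewood polynomial the set of times of a given arc at which the phase speed
lies in a given band has measure bounded below.
-/

namespace Vale.Agent.P110

open Complex Finset MeasureTheory Filter
open scoped Real ComplexConjugate Topology

lemma continuous_lit (N : ℕ) (x : ℕ → ℝ) : Continuous (lit N x) := by
  unfold lit; fun_prop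

lemma exp_periodic (k : ℕ) (θ : ℝ) (n : ℤ) :
    exp (((k : ℝ) * (θ + n * (2 * π)) : ℝ) * I) = exp (((k : ℝ) * θ : ℝ) * I) := by
  rw [Complex.exp_eq_exp_iff_exists_int]
  exact ⟨(k : ℤ) * n, by push_cast; ring⟩

lemma exp_neg_conj (k : ℕ) (θ : ℝ) :
    exp (((k : ℝ) * -θ : ℝ) * I) = conj (exp (((k : ℝ) * θ : ℝ) * I)) := by
  rw [← exp_conj, map_mul, conj_I, conj_ofReal]
  push_cast; ring_nf

lemma lit_periodic (N : ℕ) (x : ℕ → ℝ) (θ : ℝ) (n : ℤ) :
    lit N x (θ + n * (2 * π)) = lit N x θ := by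
  simp only [lit, exp_periodic]

lemma speed_periodic (N : ℕ) (x : ℕ → ℝ) (θ : ℝ) (n : ℤ) :
    speed N x (θ + n * (2 * π)) = speed N x θ := by
  simp only [speed, lit_periodic, exp_periodic]

lemma speed_neg (N : ℕ) (x : ℕ → ℝ) (θ : ℝ) : speed N x (-θ) = speed N x θ := by
  have e1 : lit N x (-θ) = conj (lit N x θ) := by
    simp only [lit, exp_neg_conj, map_sum, map_mul, conj_ofReal]
  have e2 : (∑ k ∈ range N, (k : ℂ) * (x k : ℂ) * exp (((k : ℝ) * -θ : ℝ) * I)) =
      conj (∑ k ∈ range N, (k : ℂ) * (x k : ℂ) * exp (((k : ℝ) * θ : ℝ) * I)) := by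
    simp only [exp_neg_conj, map_sum, map_mul, conj_ofReal, map_natCast]
  simp only [speed, e1, e2, ← map_div₀, conj_re]

lemma continuous_speed {N : ℕ} {c : ℝ} {x : ℕ → ℝ} (hN : 0 < N) (hc : c < 1) (hf : Flat N c x) :
    Continuous (speed N x) := by
  have hne : ∀ θ, lit N x θ ≠ 0 := by
    intro θ h
    have := (hf θ).1
    rw [h, norm_zero] at this
    have : (0 : ℝ) < √(N : ℝ) := Real.sqrt_pos.2 (by exact_mod_cast hN)
    nlinarith
  unfold speed
  refine (Complex.continuous_re.comp (Continuous.div ?_ (continuous_lit N x) hne)).div_const _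
  fun_prop

/-- Left Riemann sums on the grid tend to the average. -/
lemma tendsto_node_avg {F : ℝ → ℝ} (hF : Continuous F) :
    Tendsto (fun Q : ℕ => (∑ j ∈ range Q, F (node Q j)) / Q) atTop
      (𝓝 ((∫ θ in (0)..2 * π, F θ) / (2 * π))) := by
  rw [Metric.tendsto_atTop]
  intro ε hε
  obtain ⟨d, hd, hd'⟩ := Metric.uniformContinuousOn_iff.1
    (isCompact_Icc.uniformContinuousOn_of_continuous hF.continuousOn (s := Set.Icc 0 (2 * π)))
    (ε / 2) (by positivity)
  obtain ⟨Q0, hQ0⟩ := exists_nat_gt (2 * π / d)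
  refine ⟨Q0 + 1, fun Q hQ => ?_⟩
  have hQr : (0 : ℝ) < Q := by exact_mod_cast (by omega : 0 < Q)
  have h2π : (0 : ℝ) < 2 * π := by positivity
  have hstep : ∀ j, node Q (j + 1) - node Q j = 2 * π / Q := fun j => by
    unfold node; push_cast; ring
  have hsmall : 2 * π / Q < d := by
    rw [div_lt_iff₀ hQr]
    have : (Q0 : ℝ) < Q := by exact_mod_cast (by omega : Q0 < Q)
    rw [div_lt_iff₀ hd] at hQ0
    nlinarith
  have hsum := intervalIntegral.sum_integral_adjacent_intervals (a := node Q) (n := Q)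
    (μ := volume) (f := F) (fun k _ => hF.intervalIntegrable _ _)
  have h0 : node Q 0 = 0 := by simp [node]
  have hQQ : node Q Q = 2 * π := by unfold node; field_simp
  rw [h0, hQQ] at hsum
  have hmem : ∀ j < Q, ∀ t ∈ Set.uIoc (node Q j) (node Q (j + 1)),
      ‖F t - F (node Q j)‖ ≤ ε / 2 := by
    intro j hj t ht
    have hle : node Q j ≤ node Q (j + 1) := by linarith [hstep j, div_pos h2π hQr]
    rw [Set.uIoc_of_le hle] at ht
    have hj0 : 0 ≤ node Q j := by unfold node; positivity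
    have hj1 : node Q (j + 1) ≤ 2 * π := by
      rw [← hQQ]
      unfold node
      gcongr
      omega
    refine (hd' t ⟨by linarith [ht.1], by linarith [ht.2]⟩ _ ⟨hj0, by linarith⟩ ?_).le
    rw [Real.dist_eq, abs_of_pos (by linarith [ht.1])]
    linarith [ht.2, hstep j]
  have key : |(∑ j ∈ range Q, F (node Q j)) * (2 * π / Q) - ∫ θ in (0)..2 * π, F θ| ≤
      ε / 2 * (2 * π) := by
    rw [← hsum, sum_mul, ← sum_sub_distrib]
    refine (abs_sum_le_sum_abs _ _).trans
      ((sum_le_card_nsmul _ _ (ε / 2 * (2 * π / Q)) fun j hj => ?_).trans ?_)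
    · have hb := intervalIntegral.norm_integral_le_of_norm_le_const (hmem j (mem_range.1 hj))
      rw [intervalIntegral.integral_sub (hF.intervalIntegrable _ _) intervalIntegrable_const,
        intervalIntegral.integral_const, hstep, smul_eq_mul, Real.norm_eq_abs,
        abs_of_pos (div_pos h2π hQr)] at hb
      rwa [abs_sub_comm, mul_comm (F (node Q j))]
    · rw [card_range, nsmul_eq_mul]
      exact le_of_eq (by field_simp)
  rw [Real.dist_eq, show (∑ j ∈ range Q, F (node Q j)) / Q - (∫ θ in (0)..2 * π, F θ) / (2 * π) =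
    ((∑ j ∈ range Q, F (node Q j)) * (2 * π / Q) - ∫ θ in (0)..2 * π, F θ) / (2 * π) by
      field_simp, abs_div, abs_of_pos h2π, div_lt_iff₀ h2π]
  nlinarith

/-- A nonnegative bounded function small off `S` and its mirror has a small integral. -/
lemma integral_le_of_small {F : ℝ → ℝ} (hF : Continuous F) {S : Set ℝ} (hS : MeasurableSet S)
    {A κ μ : ℝ} (hκ : 0 ≤ κ) (hA : 0 ≤ A)
    (hμ : volume S ≤ ENNReal.ofReal μ) (hμ0 : 0 ≤ μ)
    (hbd : ∀ t ∈ Set.Icc 0 (2 * π), F t ≤ A)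
    (hsmall : ∀ t ∈ Set.Icc 0 (2 * π), t ∉ S → 2 * π - t ∉ S → F t ≤ κ) :
    ∫ t in (0)..2 * π, F t ≤ κ * (2 * π) + A * (2 * μ) := by
  have h2π : (0 : ℝ) ≤ 2 * π := by positivity
  set s1 : ℝ → ℝ := S.indicator fun _ => A with hs1
  have hi : IntervalIntegrable s1 volume 0 (2 * π) := by
    rw [intervalIntegrable_iff_integrableOn_Icc_of_le h2π]
    exact (continuous_const.integrableOn_Icc).indicator hS
  have hi2 : IntervalIntegrable (fun t => s1 (2 * π - t)) volume 0 (2 * π) := by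
    simpa using (hi.comp_sub_left (2 * π)).symm
  have hint : ∫ t in (0)..2 * π, s1 t ≤ A * μ := by
    rw [intervalIntegral.integral_of_le h2π, hs1, setIntegral_indicator hS, setIntegral_const,
      smul_eq_mul, mul_comm]
    refine mul_le_mul_of_nonneg_left ?_ hA
    exact ENNReal.toReal_le_of_le_ofReal hμ0 ((measure_mono Set.inter_subset_right).trans hμ)
  have hint2 : ∫ t in (0)..2 * π, s1 (2 * π - t) = ∫ t in (0)..2 * π, s1 t := by
    rw [intervalIntegral.integral_comp_sub_left, sub_self, sub_zero]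
  calc ∫ t in (0)..2 * π, F t
      ≤ ∫ t in (0)..2 * π, (κ + (s1 t + s1 (2 * π - t))) := by
        refine intervalIntegral.integral_mono_on h2π (hF.intervalIntegrable _ _)
          (intervalIntegrable_const.add (hi.add hi2)) fun t ht => ?_
        by_cases h1 : t ∈ S
        · have h2 : 0 ≤ s1 (2 * π - t) := Set.indicator_nonneg (fun _ _ => hA) _
          simp only [hs1, Set.indicator_of_mem h1] at h2 ⊢
          linarith [hbd t ht]
        by_cases h2 : 2 * π - t ∈ S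
        · simp only [hs1, Set.indicator_of_notMem h1, Set.indicator_of_mem h2]
          linarith [hbd t ht]
        · simp only [hs1, Set.indicator_of_notMem h1, Set.indicator_of_notMem h2]
          linarith [hsmall t ht h1 h2]
    _ = (2 * π) * κ + ((∫ t in (0)..2 * π, s1 t) + ∫ t in (0)..2 * π, s1 (2 * π - t)) := by
        rw [intervalIntegral.integral_add intervalIntegrable_const (hi.add hi2),
          intervalIntegral.integral_add hi hi2, intervalIntegral.integral_const, sub_zero,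
          smul_eq_mul]
    _ ≤ _ := by rw [hint2]; linarith

/-- The choice of the window length fits the annihilator. -/
lemma scale_bound {m R N : ℕ} {δ κ : ℝ} (hδ0 : 0 < δ) (hδ1 : δ ≤ 1) (hκ0 : 0 < κ)
    (hm : (1 : ℝ) ≤ m) (hmκ : (m : ℝ) * κ ≤ δ / 20) (hR2 : (R : ℝ) < 17 * (m : ℝ) / δ + 1)
    (hRδ : 17 * (m : ℝ) ≤ R * δ) (hNr : (0 : ℝ) ≤ N) :
    (R : ℝ) * (2 * κ ^ 2 * N) ≤ δ * N / 4 ∧ m ≤ R := by
  have h1 : (R : ℝ) * δ ≤ 18 * m := by
    have h1 := mul_lt_mul_of_pos_right hR2 hδ0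
    rw [add_mul, div_mul_cancel₀ _ hδ0.ne', one_mul] at h1
    linarith
  have h2 : (m : ℝ) * κ * κ ≤ δ / 20 * (δ / 20) := by
    refine mul_le_mul hmκ ?_ hκ0.le (by positivity)
    calc κ = 1 * κ := (one_mul κ).symm
      _ ≤ m * κ := mul_le_mul_of_nonneg_right hm hκ0.le
      _ ≤ _ := hmκ
  have h3 : (R : ℝ) * κ ^ 2 ≤ 18 / 400 * δ := by
    refine le_of_mul_le_mul_left ?_ hδ0
    calc δ * ((R : ℝ) * κ ^ 2) = (R * δ) * κ ^ 2 := by ring
      _ ≤ 18 * m * κ ^ 2 := mul_le_mul_of_nonneg_right h1 (sq_nonneg κ)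
      _ = 18 * (m * κ * κ) := by ring
      _ ≤ 18 * (δ / 20 * (δ / 20)) := mul_le_mul_of_nonneg_left h2 (by norm_num)
      _ = _ := by ring
  constructor
  · have h4 := mul_le_mul_of_nonneg_right h3 hNr
    have h5 : 0 ≤ δ * N := mul_nonneg hδ0.le hNr
    calc (R : ℝ) * (2 * κ ^ 2 * N) = 2 * (R * κ ^ 2 * N) := by ring
      _ ≤ _ := by linarith
  · have h4 : (m : ℝ) ≤ R := by
      have : (R : ℝ) * δ ≤ R * 1 := mul_le_mul_of_nonneg_left hδ1 (Nat.cast_nonneg R)
      linarith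
    exact_mod_cast h4

/-- The measure bound on an arc inside `(0, π)`. -/
lemma dense_core {u v α β : ℝ} (hu : 0 < u) (huv : u < v) (hv : v < π) (hα : 0 ≤ α)
    (hαβ : α < β) (hβ : β ≤ 1) :
    ∃ c : ℝ, 0 < c ∧ c < 1 ∧ ∃ μ : ℝ, 0 < μ ∧ ∃ N0 : ℕ, ∀ N : ℕ, N0 ≤ N → ∀ x : ℕ → ℝ,
      (∀ k < N, x k = 1 ∨ x k = -1) → Flat N c x →
      ENNReal.ofReal μ ≤ volume {t | t ∈ Set.Icc u v ∧ speed N x t ∈ Set.Icc α β} := by
  classical
  set δ := (β - α) / 4 with hδ
  have hδ0 : 0 < δ := by rw [hδ]; linarith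
  set a := (α + β) / 2 with ha
  obtain ⟨m, cz, ⟨j0, hj0, hj0'⟩, κ, hκ0, hmκ, hsm⟩ :=
    exists_gap_annihilator hu huv hv (η := δ / 20) (by positivity)
  have hm0 : 0 < m := by omega
  have hmr : (1 : ℝ) ≤ m := by exact_mod_cast hm0
  set R := ⌈17 * (m : ℝ) / δ⌉₊ with hR
  have hR1 : 17 * (m : ℝ) / δ ≤ R := Nat.le_ceil _
  have hR2 : (R : ℝ) < 17 * (m : ℝ) / δ + 1 := Nat.ceil_lt_add_one (by positivity)
  set B : ℝ := 1 + ∑ k ∈ range m, |(cz k : ℝ)| with hB
  have hB1 : 1 ≤ B := le_add_of_nonneg_right (sum_nonneg fun _ _ => abs_nonneg _)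
  have hB0 : 0 < B := lt_of_lt_of_le one_pos hB1
  set cc : ℕ → ℝ := fun k => if k < m then (cz k : ℝ) / B else 0 with hcc
  have hcc1 : ∀ k, |cc k| ≤ 1 := fun k => by
    simp only [hcc]
    split_ifs with hk
    · rw [abs_div, abs_of_pos hB0, div_le_one hB0]
      exact (single_le_sum (f := fun k => |(cz k : ℝ)|) (fun _ _ => abs_nonneg _)
        (mem_range.2 hk)).trans (le_add_of_nonneg_left zero_le_one)
    · norm_num
  have hlit : ∀ θ, ‖lit m cc θ‖ = ‖lit m (fun k => (cz k : ℝ)) θ‖ / B := by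
    intro θ
    rw [← norm_real B |>.trans (Real.norm_of_nonneg hB0.le), ← norm_div, lit, lit, sum_div]
    congr 1
    refine sum_congr rfl fun k hk => ?_
    simp only [hcc, if_pos (mem_range.1 hk)]
    push_cast
    ring
  set τ : ℝ := κ ^ 2 / (2 * B ^ 2) with hτ
  have hτ0 : 0 < τ := by positivity
  set μ : ℝ := π * τ / (2 * (m : ℝ) ^ 2) with hμ
  have hμ0 : 0 < μ := by positivity
  obtain ⟨c1, hc1, N1, H1⟩ := matches_continuous m (continuous_trap a δ) τ hτ0
  refine ⟨min c1 (1 / 2), lt_min hc1 (by norm_num), lt_of_le_of_lt (min_le_right _ _) (by norm_num),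
    μ, hμ0, max N1 (⌈((R : ℝ) + 4) / δ⌉₊ + 1), fun N hN x hx hflat => ?_⟩
  by_contra hcon
  rw [not_le] at hcon
  have hN1 : N1 ≤ N := le_trans (le_max_left _ _) hN
  have hN3 : ⌈((R : ℝ) + 4) / δ⌉₊ + 1 ≤ N := le_trans (le_max_right _ _) hN
  have hN0 : 0 < N := by omega
  have hNr : (0 : ℝ) < N := by exact_mod_cast hN0
  have hNR : (R : ℝ) + 4 ≤ δ * N := by
    have h := Nat.le_ceil (((R : ℝ) + 4) / δ)
    have h' : (⌈((R : ℝ) + 4) / δ⌉₊ : ℝ) + 1 ≤ N := by exact_mod_cast hN3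
    rw [div_le_iff₀ hδ0] at h
    nlinarith
  have hsup : ∀ θ, ‖lit N x θ‖ ^ 2 ≤ 4 * N := fun θ => by
    have := pow_le_pow_left₀ (norm_nonneg _)
      ((hflat.mono (c' := 1) ((min_le_right _ _).trans (by norm_num))) θ).2 2
    rw [mul_pow, Real.sq_sqrt hNr.le] at this
    linarith
  have hcs := continuous_speed hN0 (c := min c1 (1 / 2))
    (lt_of_le_of_lt (min_le_right _ _) (by norm_num)) hflat
  set S := {t | t ∈ Set.Icc u v ∧ speed N x t ∈ Set.Icc α β} with hSdef
  have hSm : MeasurableSet S := measurableSet_Icc.inter (hcs.measurable measurableSet_Icc)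
  set F : ℝ → ℝ := fun θ => ‖lit m cc θ‖ ^ 2 * trap a δ (speed N x θ) with hF
  have hFc : Continuous F := ((continuous_lit m cc).norm.pow 2).mul ((continuous_trap a δ).comp hcs)
  have hbd : ∀ t ∈ Set.Icc 0 (2 * π), F t ≤ (m : ℝ) ^ 2 := fun t _ =>
    (mul_le_of_le_one_right (sq_nonneg _) (trap_le_one _ _ _)).trans
      (pow_le_pow_left₀ (norm_nonneg _) (norm_lit_le m hcc1 t) 2)
  have hsmall : ∀ t ∈ Set.Icc 0 (2 * π), t ∉ S → 2 * π - t ∉ S → F t ≤ (κ / B) ^ 2 := by
    intro t ht h1 h2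
    by_cases hband : |speed N x t - a| < 2 * δ
    · refine (mul_le_of_le_one_right (sq_nonneg _) (trap_le_one _ _ _)).trans ?_
      refine pow_le_pow_left₀ (norm_nonneg _) ?_ 2
      rw [hlit]
      refine div_le_div_of_nonneg_right (hsm t ?_) hB0.le
      by_contra hgap
      push Not at hgap
      obtain ⟨g1, g2⟩ := hgap
      have hb : speed N x t ∈ Set.Icc α β := by
        rw [abs_lt] at hband
        constructor <;> linarith [hband.1, hband.2]
      have hin : ∀ r ∈ Set.Icc 0 π, Real.cos r = Real.cos t → r ∈ Set.Icc u v := by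
        intro r hr hrt
        constructor
        · by_contra hlt
          have := Real.cos_le_cos_of_nonneg_of_le_pi hr.1 (by linarith) (not_le.1 hlt).le
          linarith
        · by_contra hlt
          have := Real.cos_le_cos_of_nonneg_of_le_pi (by linarith : 0 ≤ v) hr.2 (not_le.1 hlt).le
          linarith
      rcases le_total t π with htp | htp
      · exact h1 ⟨hin t ⟨ht.1, htp⟩ rfl, hb⟩
      · refine h2 ⟨hin _ ⟨by linarith [ht.2], by linarith⟩ (Real.cos_two_pi_sub t), ?_⟩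
        have e : speed N x (2 * π - t) = speed N x t := by
          have := speed_periodic N x (-t) 1
          rw [speed_neg] at this
          rw [← this]; congr 1; push_cast; ring
        rw [e]; exact hb
    · rw [hF]
      simp only [trap_eq_zero hδ0 (not_lt.1 hband), mul_zero]
      positivity
  have hint := integral_le_of_small hFc hSm (sq_nonneg (κ / B)) (sq_nonneg (m : ℝ)) hcon.le hμ0.le
    hbd hsmall
  set Y := (∑ k ∈ range (m + N), conv m cc (trunc N x) k ^ 2 * trap a δ ((k : ℝ) / N)) / N with hY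
  have hYle : Y ≤ (∫ θ in (0)..2 * π, F θ) / (2 * π) + τ := by
    refine ge_of_tendsto ((tendsto_node_avg hFc).add_const τ)
      ((eventually_ge_atTop (m + N)).mono fun Q hQ => ?_)
    have := (abs_le.1 (H1 N hN1 x (hflat.mono (min_le_left _ _)) cc hcc1 Q hQ)).1
    linarith
  have hI : (∫ θ in (0)..2 * π, F θ) / (2 * π) ≤ (κ / B) ^ 2 + τ / 2 := by
    rw [div_le_iff₀ (by positivity)]
    refine hint.trans ?_
    have : (m : ℝ) ^ 2 * (2 * μ) = π * τ := by rw [hμ]; field_simp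
    nlinarith
  have hY2 : Y ≤ 2 * κ ^ 2 / B ^ 2 := by
    have : τ + τ / 2 ≤ κ ^ 2 / B ^ 2 := by
      rw [show τ + τ / 2 = 3 / 4 * (κ ^ 2 / B ^ 2) by rw [hτ]; ring]
      exact mul_le_of_le_one_left (by positivity) (by norm_num)
    rw [div_pow] at hI
    rw [show 2 * κ ^ 2 / B ^ 2 = κ ^ 2 / B ^ 2 + κ ^ 2 / B ^ 2 by ring]
    linarith
  have hconv : ∀ k, conv m cc (trunc N x) k =
      conv m (fun k => (cz k : ℝ)) (trunc N x) k / B := by
    intro k
    simp only [conv, sum_div]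
    refine sum_congr rfl fun j hj => ?_
    simp only [hcc, if_pos (mem_range.1 hj)]
    split_ifs <;> ring
  have hy2 : ∑ k ∈ range (m + N), conv m (fun k => (cz k : ℝ)) (trunc N x) k ^ 2 *
      trap a δ ((k : ℝ) / N) ≤ 2 * κ ^ 2 * N := by
    simp only [hY, hconv, div_pow] at hY2
    simp only [div_mul_eq_mul_div, ← sum_div] at hY2
    rw [div_right_comm, div_le_div_iff_of_pos_right (by positivity), div_le_iff₀ hNr] at hY2
    exact hY2
  have hRδ : 17 * (m : ℝ) ≤ R * δ := by rwa [div_le_iff₀ hδ0] at hR1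
  obtain ⟨hsm2, hmR⟩ := scale_bound hδ0 (show δ ≤ 1 by rw [hδ]; linarith) hκ0 hmr hmκ hR2 hRδ hNr.le
  have hGR := window_contra hx hsup (fun k => ⟨cz k, rfl⟩)
    ⟨j0, hj0, by exact_mod_cast hj0'⟩ hmR hδ0 (a := a) (by linarith) (by linarith) hNR hy2 hsm2
  nlinarith [mul_le_mul_of_nonneg_right hRδ hNr.le]

/-- The measure bound on an arbitrary arc. -/
theorem speed_dense {θ₁ θ₂ α β : ℝ} (hθ : θ₁ < θ₂) (hα : 0 ≤ α) (hαβ : α < β) (hβ : β ≤ 1) :
    ∃ c : ℝ, 0 < c ∧ ∃ μ : ℝ, 0 < μ ∧ ∃ N0 : ℕ, ∀ N : ℕ, N0 ≤ N → ∀ x : ℕ → ℝ,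
      (∀ k < N, x k = 1 ∨ x k = -1) → Flat N c x →
      ENNReal.ofReal μ ≤ volume {t | t ∈ Set.Icc θ₁ θ₂ ∧ speed N x t ∈ Set.Icc α β} := by
  set k : ℤ := ⌊θ₁ / π⌋ with hk
  have hk1 : (k : ℝ) * π ≤ θ₁ := (le_div_iff₀ Real.pi_pos).1 (Int.floor_le _)
  have hk2 : θ₁ < ((k : ℝ) + 1) * π := (div_lt_iff₀ Real.pi_pos).1 (Int.lt_floor_add_one _)
  set w := min θ₂ (((k : ℝ) + 1) * π) - θ₁ with hw
  have hw0 : 0 < w := by rw [hw, sub_pos]; exact lt_min hθ hk2
  have hw1 : θ₁ + w ≤ θ₂ := by rw [hw]; linarith [min_le_left θ₂ (((k : ℝ) + 1) * π)]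
  have hw2 : θ₁ + w ≤ ((k : ℝ) + 1) * π := by
    rw [hw]; linarith [min_le_right θ₂ (((k : ℝ) + 1) * π)]
  rcases Int.even_or_odd k with ⟨n, hn⟩ | ⟨n, hn⟩
  · have hn' : (k : ℝ) = 2 * n := by rw [hn]; push_cast; ring
    set o : ℝ := n * (2 * π) with ho
    obtain ⟨c, hc, -, μ, hμ, N0, H⟩ := dense_core (u := θ₁ + w / 3 - o) (v := θ₁ + 2 * w / 3 - o)
      (by rw [ho]; nlinarith) (by linarith) (by rw [ho]; nlinarith) hα hαβ hβ
    refine ⟨c, hc, μ, hμ, N0, fun N hN x hx hf => (H N hN x hx hf).trans ?_⟩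
    rw [← measure_preimage_add_right volume o {t | t ∈ Set.Icc θ₁ θ₂ ∧ _}]
    refine measure_mono fun t ht => ?_
    obtain ⟨⟨h1, h2⟩, h3⟩ := ht
    simp only [Set.mem_preimage, Set.mem_ofPred_eq, Set.mem_Icc]
    exact ⟨⟨by linarith, by linarith⟩, by rw [ho, speed_periodic]; exact h3⟩
  · have hn' : (k : ℝ) = 2 * n + 1 := by rw [hn]; push_cast; ring
    set o : ℝ := ((n + 1 : ℤ) : ℝ) * (2 * π) with ho
    have ho' : o = ((k : ℝ) + 1) * π := by rw [ho, hn']; push_cast; ring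
    obtain ⟨c, hc, -, μ, hμ, N0, H⟩ := dense_core (u := o - (θ₁ + 2 * w / 3))
      (v := o - (θ₁ + w / 3))
      (by linarith) (by linarith) (by rw [ho']; linarith) hα hαβ hβ
    refine ⟨c, hc, μ, hμ, N0, fun N hN x hx hf => (H N hN x hx hf).trans ?_⟩
    rw [← (Measure.measurePreserving_sub_left volume o).measure_preimage_emb
      (MeasurableEquiv.subLeft o).measurableEmbedding {t | t ∈ Set.Icc θ₁ θ₂ ∧ _}]
    refine measure_mono fun t ht => ?_
    obtain ⟨⟨h1, h2⟩, h3⟩ := ht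
    simp only [Set.mem_preimage, Set.mem_ofPred_eq, Set.mem_Icc]
    refine ⟨⟨by linarith, by linarith⟩, ?_⟩
    rw [show o - t = -t + o by ring, ho, speed_periodic, speed_neg]
    exact h3

/-- Hence the clamped speed has large variation on every arc. -/
theorem variation_on_arc {θ₁ θ₂ α β : ℝ} (hθ : θ₁ < θ₂) (hα : 0 ≤ α) (hαβ : α < β) (hβ : β ≤ 1)
    (M : ℝ) :
    ∃ c : ℝ, 0 < c ∧ ∃ N0 : ℕ, ∀ N : ℕ, N0 ≤ N → ∀ x : ℕ → ℝ,
      (∀ k < N, x k = 1 ∨ x k = -1) → Flat N c x →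
      ENNReal.ofReal M < eVariationOn (fun t => max α (min β (speed N x t))) (Set.Icc θ₁ θ₂) := by
  classical
  set γ := (β - α) / 3 with hγ
  have hγ0 : 0 < γ := by rw [hγ]; linarith
  obtain ⟨L, hL⟩ := exists_nat_gt (max M 0 / γ)
  set I : ℕ → ℝ := fun i => θ₁ + (θ₂ - θ₁) * i / L with hI
  have hL0 : (0 : ℝ) < L := lt_of_le_of_lt (by positivity) hL
  have hIlt : ∀ i, I i < I (i + 1) := fun i => by
    simp only [hI]; push_cast
    rw [add_lt_add_iff_left, div_lt_div_iff_of_pos_right hL0]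
    nlinarith
  choose cl hcl μl hμl Nl Hl using fun i =>
    speed_dense (hIlt i) hα (show α < α + γ by linarith) (by linarith)
  choose ch hch μh hμh Nh Hh using fun i =>
    speed_dense (hIlt i) (show 0 ≤ β - γ by linarith) (show β - γ < β by linarith) hβ
  have hLn : 0 < L := by exact_mod_cast hL0
  have hne : (range L).Nonempty := nonempty_range_iff.2 hLn.ne'
  refine ⟨(range L).inf' hne (fun i => min (cl i) (ch i)),
    (lt_inf'_iff hne).2 fun i _ => lt_min (hcl i) (hch i),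
    (range L).sup fun i => max (Nl i) (Nh i), fun N hN x hx hf => ?_⟩
  set g := fun t => max α (min β (speed N x t)) with hg
  have hstep : ∀ i ∈ range L, ENNReal.ofReal γ ≤ eVariationOn g (Set.Icc (I i) (I (i + 1))) := by
    intro i hi
    have hN' := le_trans (le_sup (f := fun i => max (Nl i) (Nh i)) hi) hN
    have hc' := inf'_le (fun i => min (cl i) (ch i)) hi
    obtain ⟨t, ht, ht'⟩ := nonempty_of_measure_ne_zero (ne_of_gt (lt_of_lt_of_le
      (ENNReal.ofReal_pos.2 (hμl i)) (Hl i N (le_trans (le_max_left _ _) hN') x hx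
        (hf.mono (hc'.trans (min_le_left _ _))))))
    obtain ⟨t', ht₂, ht₂'⟩ := nonempty_of_measure_ne_zero (ne_of_gt (lt_of_lt_of_le
      (ENNReal.ofReal_pos.2 (hμh i)) (Hh i N (le_trans (le_max_right _ _) hN') x hx
        (hf.mono (hc'.trans (min_le_right _ _))))))
    refine le_trans ?_ (eVariationOn.edist_le g ht₂ ht)
    rw [edist_dist, Real.dist_eq]
    refine ENNReal.ofReal_le_ofReal (le_trans ?_ (le_abs_self _))
    have e1 : g t ≤ α + γ := max_le (by linarith) ((min_le_right _ _).trans ht'.2)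
    have e2 : β - γ ≤ g t' := le_max_of_le_right (le_min (by linarith) ht₂'.1)
    linarith
  have hmono : Monotone I := monotone_nat_of_le_succ fun i => (hIlt i).le
  have hsum := eVariationOn.sum' g hmono (n := L)
  have hI0 : I 0 = θ₁ := by simp [hI]
  have hIL : I L = θ₂ := by simp only [hI]; field_simp; ring
  rw [hI0, hIL] at hsum
  refine lt_of_lt_of_le ?_ ((sum_le_sum hstep).trans (le_of_eq_of_le hsum le_rfl))
  rw [sum_const, card_range, nsmul_eq_mul, ← ENNReal.ofReal_natCast, ← ENNReal.ofReal_mul hL0.le]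
  rw [div_lt_iff₀ hγ0] at hL
  exact (ENNReal.ofReal_lt_ofReal_iff (by positivity)).2
    (lt_of_le_of_lt (le_max_left M 0) hL)

end Vale.Agent.P110
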