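import Vale.Agent.P110.Trig

/-!
# P110: a short polynomial with coefficients in `{-1, 0, 1}` tiny on few cells of the circle
-/

namespace Vale.Agent.P110

open Complex Finset
open scoped Real

lemma two_pow_le_two_mul_factorial : ∀ R : ℕ, 2 ^ R ≤ 2 * R.factorial
  | 0 => by simp
  | 1 => by simp
  | R + 2 => by
    have h := two_pow_le_two_mul_factorial (R + 1)
    rw [Nat.factorial_succ (R + 1), pow_succ]
    calc 2 ^ (R + 1) * 2 ≤ 2 * (R + 1).factorial * (R + 1 + 1) :=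
          Nat.mul_le_mul h (by omega)
      _ = _ := by ring

lemma exp_taylor_err {x : ℂ} (hx : ‖x‖ ≤ 1) {R : ℕ} (hR : 0 < R) :
    ‖exp x - ∑ r ∈ range R, x ^ r / r.factorial‖ ≤ 4 / 2 ^ R := by
  refine (Complex.exp_bound hx hR).trans ?_
  have h1 : ((R.succ : ℝ) * ((R.factorial : ℝ) * R)⁻¹) ≤ 4 / 2 ^ R := by
    have hR1 : (1 : ℝ) ≤ R := by exact_mod_cast hR
    have h2 : (2 : ℝ) ^ R ≤ 2 * (R.factorial : ℝ) := by
      exact_mod_cast two_pow_le_two_mul_factorial R
    rw [← div_eq_mul_inv, div_le_div_iff₀ (by positivity) (by positivity)]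
    push_cast
    calc ((R : ℝ) + 1) * 2 ^ R ≤ (2 * R) * (2 * (R.factorial : ℝ)) :=
          mul_le_mul (by linarith) h2 (by positivity) (by positivity)
      _ = 4 * ((R.factorial : ℝ) * R) := by ring
  exact le_trans (mul_le_of_le_one_left (by positivity) (pow_le_one₀ (norm_nonneg _) hx)) h1

/-- The centre of the `i`-th of `8m` cells. -/
noncomputable def base (m i : ℕ) : ℝ := 2 * π * i / (8 * m)

/-- Taylor coefficient of a trigonometric polynomial at the base of a cell. -/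
noncomputable def tc (m : ℕ) (c : ℕ → ℝ) (i r : ℕ) : ℂ :=
  ∑ k ∈ range m, (c k : ℂ) * exp (((k : ℝ) * base m i : ℝ) * I) *
    ((((k : ℝ) / m) ^ r / r.factorial : ℝ) : ℂ)

lemma norm_tc_le (m : ℕ) {c : ℕ → ℝ} (hc : ∀ k, |c k| ≤ 1) (i r : ℕ) : ‖tc m c i r‖ ≤ m := by
  refine (norm_sum_le_of_le _ (n := fun _ => (1 : ℝ)) fun k hk => ?_).trans (le_of_eq (by simp))
  rw [norm_mul, norm_mul, norm_exp_ofReal_mul_I, norm_real, norm_real, Real.norm_eq_abs,
    Real.norm_eq_abs, mul_one]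
  refine mul_le_one₀ (hc k) (abs_nonneg _) ?_
  rw [abs_of_nonneg (by positivity)]
  have hk' : (k : ℝ) / m ≤ 1 := by
    refine div_le_one_of_le₀ ?_ (Nat.cast_nonneg m)
    exact_mod_cast (mem_range.1 hk).le
  exact (div_le_self (by positivity) (by exact_mod_cast r.factorial_pos)).trans
    (pow_le_one₀ (by positivity) hk')

lemma lit_near (m : ℕ) {c : ℕ → ℝ} (hc : ∀ k, |c k| ≤ 1) (i : ℕ) {R : ℕ} (hR : 0 < R) {s : ℝ}
    (hs : |s| ≤ 1) :
    ‖lit m c (base m i + s / m)‖ ≤ (∑ r ∈ range R, ‖tc m c i r‖) + m * (4 / 2 ^ R) := by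
  set E : ℕ → ℂ := fun k => (c k : ℂ) * exp (((k : ℝ) * base m i : ℝ) * I) with hE
  set T : ℕ → ℂ := fun k =>
    ∑ r ∈ range R, (((((k : ℝ) / m) * s : ℝ) : ℂ) * I) ^ r / r.factorial with hT
  have e : lit m c (base m i + s / m) =
      ∑ r ∈ range R, ((s : ℂ) * I) ^ r * tc m c i r +
        ∑ k ∈ range m, E k * (exp (((((k : ℝ) / m) * s : ℝ) : ℂ) * I) - T k) := by
    simp only [mul_sub, sum_sub_distrib]
    have h1 : ∑ k ∈ range m, E k * T k = ∑ r ∈ range R, ((s : ℂ) * I) ^ r * tc m c i r := by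
      simp only [hE, hT, tc, mul_sum]
      rw [sum_comm]
      refine sum_congr rfl fun r _ => sum_congr rfl fun k _ => ?_
      push_cast
      ring
    rw [h1, add_sub_cancel]
    simp only [lit, hE]
    refine sum_congr rfl fun k _ => ?_
    rw [mul_assoc, ← exp_add]
    push_cast
    ring_nf
  rw [e]
  refine (norm_add_le _ _).trans (add_le_add ?_ ?_)
  · refine norm_sum_le_of_le _ fun r _ => ?_
    rw [norm_mul, norm_pow, norm_mul, norm_I, mul_one, norm_real, Real.norm_eq_abs]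
    exact mul_le_of_le_one_left (norm_nonneg _) (pow_le_one₀ (abs_nonneg _) hs)
  · refine (norm_sum_le_of_le _ (n := fun _ => (4 : ℝ) / 2 ^ R) fun k hk => ?_).trans
      (le_of_eq (by simp))
    rw [hE, norm_mul, norm_mul, norm_exp_ofReal_mul_I, norm_real, Real.norm_eq_abs, mul_one]
    refine le_trans (mul_le_of_le_one_left (norm_nonneg _) (hc k)) (exp_taylor_err ?_ hR)
    rw [norm_mul, norm_I, mul_one, norm_real, Real.norm_eq_abs, abs_mul]
    refine mul_le_one₀ ?_ (abs_nonneg _) hs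
    rw [abs_of_nonneg (by positivity)]
    exact div_le_one_of_le₀ (by exact_mod_cast (mem_range.1 hk).le) (Nat.cast_nonneg m)

/-- Siegel-type pigeonhole. -/
lemma exists_small (m R K : ℕ) (A : Finset ℕ) (hR : 0 < R) (hK : 0 < K)
    (hcard : (2 * (K * m) + 1) ^ (2 * (A.card * R)) < 2 ^ m) :
    ∃ c : ℕ → ℤ, (∀ k, |c k| ≤ 1) ∧ (∃ k < m, c k ≠ 0) ∧
      ∀ i ∈ A, ∀ s : ℝ, |s| ≤ 1 →
        ‖lit m (fun k => (c k : ℝ)) (base m i + s / m)‖ ≤ R * (2 / K) + m * (4 / 2 ^ R) := by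
  classical
  let co : (Fin m → Bool) → ℕ → ℤ := fun b k =>
    if h : k < m then (if b ⟨k, h⟩ then 1 else 0) else 0
  let cr : (Fin m → Bool) → ℕ → ℝ := fun b k => (co b k : ℝ)
  have hco : ∀ b k, co b k = 0 ∨ co b k = 1 := by
    intro b k; simp only [co]; split_ifs <;> simp
  have hcr : ∀ b k, |cr b k| ≤ 1 := by
    intro b k; rcases hco b k with h | h <;> simp [cr, h]
  let f : (Fin m → Bool) → (↥A × Fin R → ℤ × ℤ) := fun b p =>
    (⌊(K : ℝ) * (tc m (cr b) p.1 p.2).re⌋, ⌊(K : ℝ) * (tc m (cr b) p.1 p.2).im⌋)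
  let S : Finset (↥A × Fin R → ℤ × ℤ) := Fintype.piFinset fun _ =>
    Finset.Icc (-((K * m : ℕ) : ℤ)) (K * m : ℕ) ×ˢ Finset.Icc (-((K * m : ℕ) : ℤ)) (K * m : ℕ)
  have hmem : ∀ v : ℝ, |v| ≤ m →
      ⌊(K : ℝ) * v⌋ ∈ Finset.Icc (-((K * m : ℕ) : ℤ)) ((K * m : ℕ) : ℤ) := by
    intro v hv
    rw [abs_le] at hv
    have hK0 : (0 : ℝ) ≤ K := Nat.cast_nonneg K
    rw [Finset.mem_Icc]
    constructor
    · rw [Int.le_floor]; push_cast; nlinarith
    · rw [Int.floor_le_iff]; push_cast; nlinarith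
  have hmaps : Set.MapsTo f (Finset.univ : Finset (Fin m → Bool)) (S : Set _) := by
    intro b _
    simp only [S, Finset.mem_coe, Fintype.mem_piFinset, Finset.mem_product]
    exact fun p => ⟨hmem _ ((abs_re_le_norm _).trans (norm_tc_le m (hcr b) _ _)),
      hmem _ ((abs_im_le_norm _).trans (norm_tc_le m (hcr b) _ _))⟩
  have hS : S.card < (Finset.univ : Finset (Fin m → Bool)).card := by
    simp only [S, Fintype.card_piFinset, Finset.card_product, Int.card_Icc, Finset.prod_const,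
      Finset.card_univ, Fintype.card_fun, Fintype.card_prod, Fintype.card_coe, Fintype.card_fin,
      Fintype.card_bool]
    rw [← sq, ← pow_mul]
    convert hcard using 2
    omega
  obtain ⟨b, -, b', -, hne, heq⟩ := Finset.exists_ne_map_eq_of_card_lt_of_maps_to hS hmaps
  refine ⟨fun k => co b k - co b' k, fun k => ?_, ?_, ?_⟩
  · rcases hco b k with h | h <;> rcases hco b' k with h' | h' <;> simp [h, h']
  · obtain ⟨k, hk⟩ := Function.ne_iff.1 hne
    refine ⟨k, k.2, fun h => hk ?_⟩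
    simp only [co, k.2, dif_pos, Fin.eta] at h
    split_ifs at h <;> simp_all
  · intro i hi s hs
    have hd : ∀ k, |((co b k - co b' k : ℤ) : ℝ)| ≤ 1 := by
      intro k; rcases hco b k with h | h <;> rcases hco b' k with h' | h' <;> simp [h, h']
    refine (lit_near m hd i hR hs).trans (add_le_add ?_ le_rfl)
    refine (sum_le_card_nsmul _ _ (2 / (K : ℝ)) fun r hr => ?_).trans (le_of_eq (by simp))
    have h := congrFun heq (⟨i, hi⟩, ⟨r, mem_range.1 hr⟩)
    simp only [f, Prod.mk.injEq] at h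
    have e : tc m (fun k => ((co b k - co b' k : ℤ) : ℝ)) i r =
        tc m (cr b) i r - tc m (cr b') i r := by
      simp only [tc, cr, ← sum_sub_distrib]
      refine sum_congr rfl fun k _ => ?_
      push_cast
      ring
    rw [e]
    have hK' : (0 : ℝ) < K := by exact_mod_cast hK
    have hclose : ∀ u v : ℝ, ⌊(K : ℝ) * u⌋ = ⌊(K : ℝ) * v⌋ → |u - v| ≤ 1 / K := by
      intro u v huv
      have := Int.abs_sub_lt_one_of_floor_eq_floor huv
      rw [← mul_sub, abs_mul, abs_of_pos hK'] at this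
      rw [le_div_iff₀ hK']
      linarith
    refine (Complex.norm_le_abs_re_add_abs_im _).trans ?_
    rw [sub_re, sub_im]
    exact (add_le_add (hclose _ _ h.1) (hclose _ _ h.2)).trans (le_of_eq (by ring))

end Vale.Agent.P110
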