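import Vale.Agent.P110.Trig

/-!
# P110: windows annihilated by a short recurrence

Windows of length `R` annihilated by a fixed recurrence of length `m` lie in a space of dimension
`m`, so by Bessel's inequality there are at most `4 m N / R` of them.
-/

namespace Vale.Agent.P110

open Complex Finset Module
open scoped Real RealInnerProductSpace ComplexConjugate

/-- Extend a vector by zero. -/
noncomputable def vget {R : ℕ} (v : EuclideanSpace ℝ (Fin R)) (n : ℕ) : ℝ :=
  if h : n < R then v ⟨n, h⟩ else 0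

/-- The recurrence with coefficients `c`. -/
noncomputable def recMap (m : ℕ) (c : ℕ → ℝ) (R : ℕ) :
    EuclideanSpace ℝ (Fin R) →ₗ[ℝ] (Fin R → ℝ) where
  toFun v i := if m ≤ (i : ℕ) then ∑ j ∈ range m, c j * vget v (i - j) else 0
  map_add' v w := by
    funext i
    simp only [Pi.add_apply]
    split_ifs
    · rw [← sum_add_distrib]
      refine sum_congr rfl fun j _ => ?_
      simp only [vget]
      split_ifs <;> simp [mul_add]
    · simp
  map_smul' a v := by
    funext i
    simp only [RingHom.id_apply, Pi.smul_apply, smul_eq_mul, mul_ite, mul_zero, mul_sum]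
    split_ifs
    · refine sum_congr rfl fun j _ => ?_
      simp only [vget]
      split_ifs <;> simp [mul_left_comm]
    · rfl

lemma finrank_ker_le {m R : ℕ} (hmR : m ≤ R) {c : ℕ → ℝ} (hc : ∃ j < m, c j ≠ 0) :
    finrank ℝ (LinearMap.ker (recMap m c R)) ≤ m := by
  classical
  set j0 := Nat.find hc with hj0
  obtain ⟨hj0m, hj0c⟩ := Nat.find_spec hc
  have hlow : ∀ j < j0, c j = 0 := fun j hj => by
    by_contra h
    exact Nat.find_min hc hj ⟨lt_trans hj hj0m, h⟩
  let e : Fin m → Fin R := fun r =>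
    if h : (r : ℕ) < m - j0 then ⟨r, by omega⟩
    else ⟨R - m + r, by have := r.2; omega⟩
  let L : LinearMap.ker (recMap m c R) →ₗ[ℝ] (Fin m → ℝ) :=
    { toFun := fun v r => (v : EuclideanSpace ℝ (Fin R)) (e r)
      map_add' := fun v w => by funext r; simp
      map_smul' := fun a v => by funext r; simp }
  have hinj : Function.Injective L := by
    rw [← LinearMap.ker_eq_bot, LinearMap.ker_eq_bot']
    intro v hv
    have hker : ∀ i : Fin R, m ≤ (i : ℕ) → ∑ j ∈ range m, c j * vget v.1 (i - j) = 0 := by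
      intro i hi
      have := congrFun (LinearMap.mem_ker.1 v.2) i
      simpa [recMap, hi] using this
    have hz : ∀ n : ℕ, ∀ hn : n < R, v.1 ⟨n, hn⟩ = 0 := by
      intro n
      induction n using Nat.strong_induction_on with
      | _ n ih =>
        intro hn
        by_cases h1 : n < m - j0
        · have := congrFun hv ⟨n, by omega⟩
          simpa [L, e, h1] using this
        by_cases h2 : R - j0 ≤ n
        · have := congrFun hv ⟨n - (R - m), by omega⟩
          have h3 : ¬ (n - (R - m) < m - j0) := by omega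
          have h4 : R - m + (n - (R - m)) = n := by omega
          simpa [L, e, h3, h4] using this
        have hk := hker ⟨n + j0, by omega⟩ (by simp only; omega)
        rw [Finset.sum_eq_single j0] at hk
        · simp [vget, hn] at hk
          exact hk.resolve_left hj0c
        · intro j hj hne
          rcases lt_or_gt_of_ne hne with h | h
          · simp [hlow j h]
          · have h5 : n + j0 - j < n := by have := mem_range.1 hj; omega
            simp only [vget]
            rw [dif_pos (lt_trans h5 hn), ih _ h5 (lt_trans h5 hn), mul_zero]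
        · intro h; exact absurd (mem_range.2 hj0m) h
    refine Subtype.ext ?_
    ext i
    simpa using hz i i.2
  simpa using LinearMap.finrank_le_finrank_of_injective hinj

/-- The window of length `R` starting at `k`. -/
noncomputable def window (X : ℕ → ℝ) (R k : ℕ) : EuclideanSpace ℝ (Fin R) :=
  WithLp.toLp 2 fun i => X (k + i)

lemma sum_sq_inner_le {N R : ℕ} {x : ℕ → ℝ} (hsup : ∀ θ, ‖lit N x θ‖ ^ 2 ≤ 4 * N)
    (G : Finset ℕ) (hG : ∀ k ∈ G, k + R ≤ N) (w : EuclideanSpace ℝ (Fin R)) :
    ∑ k ∈ G, ⟪w, window (trunc N x) R k⟫ ^ 2 ≤ 4 * N * ‖w‖ ^ 2 := by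
  rcases Nat.eq_zero_or_pos R with rfl | hR
  · simp [Subsingleton.elim w 0]
  set X := trunc N x
  set b : ℕ → ℝ := fun t => vget w (R - 1 - t)
  have hinner : ∀ k ∈ G, ⟪w, window X R k⟫ = conv R b X (k + R - 1) := by
    intro k _
    simp only [conv, b]
    rw [← sum_range_reflect, PiLp.inner_apply, ← Fin.sum_univ_eq_sum_range]
    refine Finset.sum_congr rfl fun i _ => ?_
    have := i.2
    rw [if_pos (by omega)]
    simp only [window, vget, show R - 1 - (R - 1 - (i : ℕ)) = i by omega,
      show k + R - 1 - (R - 1 - (i : ℕ)) = k + i by omega, dif_pos this, Fin.eta]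
    simp [mul_comm]
  rw [sum_congr rfl fun k hk => by rw [hinner k hk]]
  have hinj : ∀ a ∈ G, ∀ a' ∈ G, a + R - 1 = a' + R - 1 → a = a' := fun a _ a' _ h => by omega
  rw [← sum_image (g := fun k => k + R - 1) (f := fun n => conv R b X n ^ 2) hinj]
  have hsub : G.image (fun k => k + R - 1) ⊆ range (R + N) := by
    intro n hn
    obtain ⟨k, hk, rfl⟩ := mem_image.1 hn
    have := hG k hk
    exact mem_range.2 (by omega)
  refine (sum_le_sum_of_subset_of_nonneg hsub fun _ _ _ => sq_nonneg _).trans ?_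
  have hp := parseval_norm (le_refl (R + N)) (conv R b X)
  have hb2 := parseval_norm (Nat.le_add_right R N) b
  have hw : ∑ t ∈ range R, b t ^ 2 = ‖w‖ ^ 2 := by
    rw [EuclideanSpace.norm_sq_eq, ← Fin.sum_univ_eq_sum_range (fun t => b t ^ 2)]
    refine (Equiv.sum_comp Fin.revPerm _).symm.trans (Finset.sum_congr rfl fun i _ => ?_)
    have := i.2
    simp only [b, vget, Fin.revPerm_apply, Fin.val_rev,
      show R - 1 - (R - ((i : ℕ) + 1)) = i by omega, dif_pos this, Fin.eta]
    simp [sq_abs]
  rw [hw] at hb2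
  have hle : ∑ j ∈ range (R + N), ‖lit (R + N) (conv R b X) (node (R + N) j)‖ ^ 2 ≤
      ∑ j ∈ range (R + N), ‖lit R b (node (R + N) j)‖ ^ 2 * (4 * N) := by
    refine sum_le_sum fun j _ => ?_
    rw [← lit_mul, norm_mul, mul_pow]
    exact mul_le_mul_of_nonneg_left (hsup _) (sq_nonneg _)
  rw [← sum_mul, hp, hb2] at hle
  have hpos : (0 : ℝ) < ((R + N : ℕ) : ℝ) := by exact_mod_cast (by omega : 0 < R + N)
  refine le_of_mul_le_mul_left (hle.trans (le_of_eq ?_)) hpos
  ring

lemma annihilated_card_le {N R m : ℕ} {x : ℕ → ℝ} (hsup : ∀ θ, ‖lit N x θ‖ ^ 2 ≤ 4 * N)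
    (hx : ∀ k < N, x k ^ 2 = 1) (hmR : m ≤ R) {c : ℕ → ℝ} (hc : ∃ j < m, c j ≠ 0)
    (G : Finset ℕ) (hG : ∀ k ∈ G, k + R ≤ N)
    (hG0 : ∀ k ∈ G, ∀ i, m ≤ i → i < R → conv m c (trunc N x) (k + i) = 0) :
    (G.card : ℝ) * R ≤ m * (4 * N) := by
  set X := trunc N x
  set W := LinearMap.ker (recMap m c R)
  have hmem : ∀ k ∈ G, window X R k ∈ W := by
    intro k hk
    rw [LinearMap.mem_ker]
    funext i
    simp only [recMap, LinearMap.coe_mk, AddHom.coe_mk, Pi.zero_apply]
    split_ifs with hi
    · rw [← hG0 k hk i hi i.2, conv]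
      refine sum_congr rfl fun j hj => ?_
      have hj' := mem_range.1 hj
      have := i.2
      rw [if_pos (by omega)]
      simp only [vget, window, show (i : ℕ) - j < R by omega, dif_pos]
      rw [show k + (i : ℕ) - j = k + ((i : ℕ) - j) by omega]
    · rfl
  have hnorm : ∀ k ∈ G, ⟪window X R k, window X R k⟫ = (R : ℝ) := by
    intro k hk
    rw [real_inner_self_eq_norm_sq, EuclideanSpace.norm_sq_eq]
    have : ∀ i : Fin R, ‖(window X R k) i‖ ^ 2 = 1 := by
      intro i
      have := hG k hk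
      have := i.2
      simp only [window, X, trunc, Real.norm_eq_abs, sq_abs, if_pos (show k + (i : ℕ) < N by omega)]
      exact hx _ (by omega)
    rw [Finset.sum_congr rfl fun i _ => this i]
    simp
  set B := stdOrthonormalBasis ℝ W
  have hexp : ∀ k ∈ G, (R : ℝ) = ∑ i, ⟪(B i : EuclideanSpace ℝ (Fin R)), window X R k⟫ ^ 2 := by
    intro k hk
    rw [← hnorm k hk]
    have := B.sum_inner_mul_inner ⟨_, hmem k hk⟩ ⟨_, hmem k hk⟩
    simp only [Submodule.coe_inner] at this
    rw [← this]
    refine Finset.sum_congr rfl fun i _ => ?_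
    rw [real_inner_comm (B i : EuclideanSpace ℝ (Fin R)), sq]
  calc (G.card : ℝ) * R = ∑ _k ∈ G, (R : ℝ) := by simp
    _ = ∑ k ∈ G, ∑ i, ⟪(B i : EuclideanSpace ℝ (Fin R)), window X R k⟫ ^ 2 := sum_congr rfl hexp
    _ = ∑ i, ∑ k ∈ G, ⟪(B i : EuclideanSpace ℝ (Fin R)), window X R k⟫ ^ 2 := sum_comm
    _ ≤ ∑ _i : Fin (finrank ℝ W), (4 * (N : ℝ)) := by
        refine sum_le_sum fun i _ => (sum_sq_inner_le hsup G hG _).trans (le_of_eq ?_)
        rw [show ‖(B i : EuclideanSpace ℝ (Fin R))‖ = 1 from B.orthonormal.norm_eq_one i]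
        ring
    _ = (finrank ℝ W : ℝ) * (4 * N) := by simp
    _ ≤ m * (4 * N) := by
        have : (finrank ℝ W : ℝ) ≤ m := by exact_mod_cast finrank_ker_le hmR hc
        nlinarith [Nat.cast_nonneg (α := ℝ) N]

end Vale.Agent.P110
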