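import Vale.Agent.P110.Moment
import Vale.Agent.P110.Pigeon
import Vale.Agent.P110.Window

/-!
# P110: the phase speed of a nearly ultraflat Littlewood polynomial varies wildly
-/

namespace Vale.Agent.P110

open Complex Finset
open scoped Real

/-- A trapezoid: one on `|v - a| ≤ r`, zero outside `|v - a| < 2 r`. -/
noncomputable def trap (a r v : ℝ) : ℝ := max 0 (min 1 (2 - |v - a| / r))

lemma continuous_trap (a r : ℝ) : Continuous (trap a r) := by unfold trap; fun_prop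

lemma trap_nonneg (a r v : ℝ) : 0 ≤ trap a r v := le_max_left _ _

lemma trap_le_one (a r v : ℝ) : trap a r v ≤ 1 := max_le zero_le_one (min_le_left _ _)

lemma trap_eq_one {a r v : ℝ} (hr : 0 < r) (h : |v - a| ≤ r) : trap a r v = 1 := by
  have : |v - a| / r ≤ 1 := (div_le_one hr).2 h
  rw [trap, min_eq_left (by linarith), max_eq_right zero_le_one]

lemma trap_eq_zero {a r v : ℝ} (hr : 0 < r) (h : 2 * r ≤ |v - a|) : trap a r v = 0 := by
  have : 2 ≤ |v - a| / r := (le_div_iff₀ hr).2 h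
  rw [trap, max_eq_left]
  exact (min_le_right _ _).trans (by linarith)

/-- Number of `k / N` in a short interval. -/
lemma card_filter_le {N M : ℕ} (hN : 0 < N) {a r : ℝ} (hr : 0 ≤ r) :
    (((range M).filter fun k : ℕ => |(k : ℝ) / N - a| < r).card : ℝ) ≤ 2 * r * N + 2 := by
  have hNr : (0 : ℝ) < N := by exact_mod_cast hN
  set lo := ⌊(a - r) * N⌋₊ with hlo
  set hi := ⌈(a + r) * N⌉₊ with hhi
  have hsub : ((range M).filter fun k : ℕ => |(k : ℝ) / N - a| < r) ⊆ Finset.Ico lo hi := by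
    intro k hk
    obtain ⟨-, hk⟩ := mem_filter.1 hk
    rw [abs_lt] at hk
    have e : (k : ℝ) / N * N = k := div_mul_cancel₀ _ hNr.ne'
    rw [Finset.mem_Ico]
    constructor
    · refine le_trans (Nat.floor_mono (b := (k : ℝ)) ?_) (le_of_eq (Nat.floor_natCast k))
      nlinarith
    · rw [Nat.lt_ceil]
      nlinarith
  refine le_trans (Nat.cast_le.2 (card_le_card hsub)) ?_
  rw [Nat.card_Ico]
  have h1 : (a - r) * N < lo + 1 := Nat.lt_floor_add_one _
  rcases le_total hi lo with h | h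
  · rw [Nat.sub_eq_zero_of_le h, Nat.cast_zero]; positivity
  rw [Nat.cast_sub h]
  rcases le_or_gt 0 ((a + r) * N) with h2 | h2
  · have := Nat.ceil_lt_add_one h2
    rw [← hhi] at this
    nlinarith
  · have : hi = 0 := Nat.ceil_eq_zero.2 h2.le
    rw [this, Nat.cast_zero]
    nlinarith [Nat.cast_nonneg (α := ℝ) lo]

/-- A polynomial growth bound is eventually below `2^s`. -/
lemma eventually_poly_le (C : ℝ) : ∃ s0 : ℕ, ∀ s, s0 ≤ s → C * (s : ℝ) ^ 4 ≤ 2 ^ s := by
  have h := tendsto_pow_const_div_const_pow_of_one_lt 4 (by norm_num : (1 : ℝ) < 2)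
  obtain ⟨s0, h0⟩ := Filter.eventually_atTop.1 (h.eventually (Iio_mem_nhds
    (by positivity : (0 : ℝ) < 1 / (|C| + 1))))
  refine ⟨s0, fun s hs => ?_⟩
  have := h0 s hs
  rw [div_lt_div_iff₀ (by positivity) (by positivity)] at this
  nlinarith [le_abs_self C, pow_nonneg (Nat.cast_nonneg s : (0 : ℝ) ≤ s) 4]

lemma node_cell (m T i r : ℕ) :
    node (8 * m * T) (i * T + r) = base m i + (2 * π * r / (8 * T)) / m ∨ T = 0 ∨ m = 0 := by
  by_cases hT : T = 0
  · exact Or.inr (Or.inl hT)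
  by_cases hm : m = 0
  · exact Or.inr (Or.inr hm)
  left
  unfold node base
  push_cast
  have : (T : ℝ) ≠ 0 := by exact_mod_cast hT
  have : (m : ℝ) ≠ 0 := by exact_mod_cast hm
  field_simp

/-- Few cells of the grid meet `{|speed - a| < 2δ}` when the clamped speed has bounded variation
and the speed is equidistributed. -/
lemma active_card_le {g t : ℕ → ℝ} {a δ V U : ℝ} {n T : ℕ} (hδ : 0 < δ)
    (hclamp : ∀ j j', |t j - a| < 2 * δ → 4 * δ ≤ |t j' - a| → 2 * δ ≤ |g j - g j'|)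
    (hvar : ∀ r r' : ℕ → ℕ, (∀ i, i < n → r i < T ∧ r' i < T) →
      ∑ i ∈ range n, |g (i * T + r i) - g (i * T + r' i)| ≤ V)
    (hT : 0 < T) (hmass : ∑ j ∈ range (n * T), trap a (4 * δ) (t j) ≤ U * T) :
    (((range n).filter fun i => ∃ r < T, |t (i * T + r) - a| < 2 * δ).card : ℝ)
      ≤ U + V / (2 * δ) := by
  classical
  set A := (range n).filter fun i => ∃ r < T, |t (i * T + r) - a| < 2 * δ with hA
  set B := A.filter fun i => ∃ r < T, 4 * δ ≤ |t (i * T + r) - a| with hB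
  have hBA : B ⊆ A := filter_subset _ _
  have hBn : B ⊆ range n := hBA.trans (filter_subset _ _)
  have hBcard : (B.card : ℝ) * (2 * δ) ≤ V := by
    let r : ℕ → ℕ := fun i =>
      if h : i ∈ A then (mem_filter.1 h).2.choose else 0
    let r' : ℕ → ℕ := fun i =>
      if h : i ∈ B then (mem_filter.1 h).2.choose else r i
    have hr : ∀ i, r i < T := fun i => by
      simp only [r]; split_ifs with h
      · exact (mem_filter.1 h).2.choose_spec.1
      · exact hT
    have hr' : ∀ i, r' i < T := fun i => by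
      simp only [r']; split_ifs with h
      · exact (mem_filter.1 h).2.choose_spec.1
      · exact hr i
    refine le_trans ?_ (hvar r r' fun i _ => ⟨hr i, hr' i⟩)
    refine le_trans ?_ (sum_le_sum_of_subset_of_nonneg hBn fun _ _ _ => abs_nonneg _)
    rw [← nsmul_eq_mul]
    refine card_nsmul_le_sum _ _ _ fun i hi => hclamp _ _ ?_ ?_
    · simp only [r, dif_pos (hBA hi)]
      exact (mem_filter.1 (hBA hi)).2.choose_spec.2
    · simp only [r', dif_pos hi]
      exact (mem_filter.1 hi).2.choose_spec.2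
  have hAB : ((A \ B).card : ℝ) * T ≤ U * T := by
    refine le_trans ?_ hmass
    have e : ∑ j ∈ range (n * T), trap a (4 * δ) (t j) =
        ∑ i ∈ range n, ∑ r ∈ range T, trap a (4 * δ) (t (i * T + r)) := by
      induction n with
      | zero => simp
      | succ k ih =>
        rw [Nat.succ_mul, sum_range_add, sum_range_succ]
        congr 1
        clear ih hvar hmass hA hB hBA hBn hBcard
        induction k with
        | zero => simp
        | succ l ihl => rw [Nat.succ_mul, sum_range_add, ihl, sum_range_succ]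
    rw [e]
    refine le_trans ?_ (sum_le_sum_of_subset_of_nonneg
      ((sdiff_subset).trans (filter_subset _ _) : A \ B ⊆ range n)
      fun _ _ _ => sum_nonneg fun _ _ => trap_nonneg _ _ _)
    rw [← nsmul_eq_mul]
    refine card_nsmul_le_sum _ _ _ fun i hi => ?_
    rw [mem_sdiff] at hi
    refine le_of_eq ?_
    rw [sum_eq_card_nsmul (b := (1 : ℝ))]
    · simp
    · intro r hr
      refine trap_eq_one (by positivity) (le_of_lt (lt_of_not_ge fun hge =>
        hi.2 (mem_filter.2 ⟨hi.1, r, mem_range.1 hr, hge⟩)))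
  have h1 : (A.card : ℝ) = (A \ B).card + B.card := by
    exact_mod_cast (card_sdiff_add_card_eq_card hBA).symm
  have hT' : (0 : ℝ) < T := by exact_mod_cast hT
  have h2 : ((A \ B).card : ℝ) ≤ U := le_of_mul_le_mul_right hAB hT'
  have h3 : (B.card : ℝ) ≤ V / (2 * δ) := by rw [le_div_iff₀ (by positivity)]; exact hBcard
  linarith

/-- The choice of the scale parameter. -/
lemma exists_param (α β M : ℝ) (hαβ : α < β) :
    ∃ s : ℕ, 4 ≤ s ∧ 2 ^ 21 * |M| * (s : ℝ) ^ 4 ≤ 2 ^ s ∧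
      2 ^ 40 * (s : ℝ) ^ 4 ≤ 2 ^ s ∧ 4 / 2 ^ 15 / (s : ℝ) ^ 2 ≤ (β - α) / 2 := by
  obtain ⟨s0, hs0⟩ := eventually_poly_le (2 ^ 21 * |M|)
  obtain ⟨s1, hs1⟩ := eventually_poly_le (2 ^ 40)
  obtain ⟨k, hk⟩ := exists_nat_gt (1 / (β - α))
  refine ⟨s0 + s1 + k + 4, by omega, hs0 _ (by omega), hs1 _ (by omega), ?_⟩
  have h1 : 1 ≤ (β - α) * k := by
    rw [div_lt_iff₀ (by linarith)] at hk; linarith
  rw [div_le_iff₀ (by positivity)]
  push_cast
  have h0 : (0 : ℝ) ≤ s0 := Nat.cast_nonneg s0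
  have h0' : (0 : ℝ) ≤ s1 := Nat.cast_nonneg s1
  have hk0 : (0 : ℝ) ≤ k := Nat.cast_nonneg k
  have h5 : (k : ℝ) ≤ ((s0 : ℝ) + s1 + k + 4) ^ 2 := by nlinarith
  nlinarith [mul_le_mul_of_nonneg_left h5 (by linarith : (0 : ℝ) ≤ β - α)]

/-- Total variation controls sums of oscillations over cells. -/
lemma grid_variation {g : ℝ → ℝ} {M : ℝ} {n T Q : ℕ} (hQ : Q = n * T) (hQ0 : 0 < Q)
    (hcon : eVariationOn g (Set.Icc 0 (2 * π)) ≤ ENNReal.ofReal M) (r r' : ℕ → ℕ)
    (hr : ∀ i, i < n → r i < T ∧ r' i < T) :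
    ∑ i ∈ range n, |g (node Q (i * T + r i)) - g (node Q (i * T + r' i))| ≤ max M 0 := by
  set I : ℕ → ℝ := fun i => node Q (i * T) with hI
  have hnode : Monotone (node Q) := fun p q hpq => by
    unfold node
    gcongr
  have hImono : Monotone I := fun p q hpq => hnode (Nat.mul_le_mul_right T hpq)
  have hsumv := eVariationOn.sum' g hImono (n := n)
  have hI0 : I 0 = 0 := by simp [hI, node]
  have hIn : I n = 2 * π := by
    have : (Q : ℝ) ≠ 0 := by exact_mod_cast hQ0.ne'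
    simp only [hI, node, ← hQ]
    field_simp
  rw [hI0, hIn] at hsumv
  have hstep : ∀ i ∈ range n,
      ENNReal.ofReal |g (node Q (i * T + r i)) - g (node Q (i * T + r' i))| ≤
        eVariationOn g (Set.Icc (I i) (I (i + 1))) := by
    intro i hi
    obtain ⟨h1, h2⟩ := hr i (mem_range.1 hi)
    rw [← Real.dist_eq, ← edist_dist]
    refine eVariationOn.edist_le g ?_ ?_ <;>
      refine ⟨hnode (Nat.le_add_right _ _), hnode ?_⟩ <;> rw [Nat.succ_mul] <;> omega
  have htot := (sum_le_sum hstep).trans (le_of_eq_of_le hsumv hcon)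
  rw [← ENNReal.ofReal_sum_of_nonneg (fun _ _ => abs_nonneg _)] at htot
  have htot' := htot.trans (ENNReal.ofReal_le_ofReal (le_max_left M 0))
  exact (ENNReal.ofReal_le_ofReal_iff (le_max_right M 0)).1 htot'

/-- Clamping to `[α, β]` keeps the gap between being near `a` and being far from `a`. -/
lemma clamp_gap {α β a δ t t' : ℝ} (hδ : 0 < δ) (h4 : α ≤ a - 4 * δ) (h4' : a + 4 * δ ≤ β)
    (h1 : |t - a| < 2 * δ) (h2 : 4 * δ ≤ |t' - a|) :
    2 * δ ≤ |max α (min β t) - max α (min β t')| := by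
  rw [abs_lt] at h1
  have e1 : max α (min β t) = t := by
    rw [min_eq_right (by linarith), max_eq_right (by linarith)]
  rw [e1]
  rcases le_abs'.1 h2 with h | h
  · have : max α (min β t') ≤ a - 4 * δ :=
      max_le h4 ((min_le_right _ _).trans (by linarith))
    exact le_trans (by linarith) (le_abs_self _)
  · have : a + 4 * δ ≤ max α (min β t') :=
      le_max_of_le_right (le_min h4' (by linarith))
    exact le_trans (by linarith) (neg_le_abs _)

/-- The speed of a nearly ultraflat polynomial spends time about `16δ` in an interval. -/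
lemma mass_le (a : ℝ) {δ : ℝ} (hδ : 0 < δ) :
    ∃ c : ℝ, 0 < c ∧ ∃ N0 : ℕ, ∀ N : ℕ, N0 ≤ N → ∀ x : ℕ → ℝ,
      (∀ k < N, x k = 1 ∨ x k = -1) → Flat N c x → ∀ Q, 1 + N ≤ Q →
      ∑ j ∈ range Q, trap a (4 * δ) (speed N x (node Q j)) ≤ 18 * δ * Q := by
  obtain ⟨c, hc, N0, H⟩ := matches_continuous 1 (continuous_trap a (4 * δ)) δ hδ
  refine ⟨c, hc, max N0 (⌈2 / δ⌉₊ + 1), fun N hN x hx hf Q hQ => ?_⟩
  have hN1 : ⌈2 / δ⌉₊ + 1 ≤ N := le_trans (le_max_right _ _) hN
  have hN0 : 0 < N := by omega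
  have hNr : (0 : ℝ) < N := by exact_mod_cast hN0
  have h2N : 2 ≤ δ * N := by
    have h := Nat.le_ceil (2 / δ)
    have h' : (⌈2 / δ⌉₊ : ℝ) + 1 ≤ N := by exact_mod_cast hN1
    rw [div_le_iff₀ hδ] at h
    nlinarith
  set one : ℕ → ℝ := fun _ => 1 with hone
  have h := H N (le_trans (le_max_left _ _) hN) x hf one (fun _ => by simp [hone]) Q hQ
  have e1 : ∀ θ, ‖lit 1 one θ‖ ^ 2 = 1 := fun θ => by simp [lit, hone]
  simp only [e1, one_mul] at h
  have e2 : (∑ k ∈ range (1 + N), conv 1 one (trunc N x) k ^ 2 *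
      trap a (4 * δ) ((k : ℝ) / N)) / N ≤ 17 * δ := by
    rw [div_le_iff₀ hNr]
    have h3 : ∀ k ∈ range (1 + N), conv 1 one (trunc N x) k ^ 2 * trap a (4 * δ) ((k : ℝ) / N) ≤
        if |(k : ℝ) / N - a| < 8 * δ then 1 else 0 := by
      intro k _
      have hx2 : conv 1 one (trunc N x) k ^ 2 ≤ 1 := by
        simp only [conv, trunc, hone]
        rw [sum_range_one, if_pos (Nat.zero_le k), Nat.sub_zero, one_mul]
        split_ifs with hk
        · rcases hx k hk with h | h <;> rw [h] <;> norm_num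
        · norm_num
      split_ifs with hk
      · exact mul_le_one₀ hx2 (trap_nonneg _ _ _) (trap_le_one _ _ _)
      · rw [trap_eq_zero (by positivity) (by linarith [not_lt.1 hk]), mul_zero]
    refine (sum_le_sum h3).trans ?_
    rw [Finset.sum_boole]
    refine (card_filter_le hN0 (by positivity)).trans ?_
    linarith
  have h4 := (abs_le.1 h).2
  have hQr : (0 : ℝ) < Q := by exact_mod_cast (by omega : 0 < Q)
  rw [← div_le_iff₀ hQr]
  linarith

/-- Few active cells give an integer annihilator in the pigeonhole range. -/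
lemma exists_annihilator {s m : ℕ} (hs : 4 ≤ s) (hm : m = 2 ^ s) {T : ℕ} (A : Finset ℕ)
    (hbits : 48 * s ^ 2 * A.card < m) :
    ∃ cz : ℕ → ℤ, (∀ k, |(cz k : ℝ)| ≤ 1) ∧ (∃ j < m, (cz j : ℝ) ≠ 0) ∧
      ∀ i ∈ A, ∀ r < T,
        ‖lit m (fun k => (cz k : ℝ)) (node (8 * m * T) (i * T + r))‖ ≤ 1 / 2 ^ (2 * s) := by
  have hcard : (2 * (2 ^ (4 * s) * m) + 1) ^ (2 * (A.card * (4 * s))) < 2 ^ m := by
    have h1 : 2 * (2 ^ (4 * s) * m) + 1 ≤ 2 ^ (6 * s) := by
      rw [hm, ← pow_add]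
      have h2 : 2 * 2 ^ (4 * s + s) + 1 ≤ 2 ^ (4 * s + s + 2) := by
        have : 1 ≤ 2 ^ (4 * s + s) := Nat.one_le_two_pow
        rw [pow_add 2 (4 * s + s) 2]; omega
      exact h2.trans (Nat.pow_le_pow_right (by norm_num) (by omega))
    refine lt_of_le_of_lt (Nat.pow_le_pow_left h1 _) ?_
    rw [← pow_mul]
    refine Nat.pow_lt_pow_right (by norm_num) ?_
    calc 6 * s * (2 * (A.card * (4 * s))) = 48 * s ^ 2 * A.card := by ring
      _ < m := hbits
  obtain ⟨cz, hcz1, ⟨j, hj, hj'⟩, hczA⟩ :=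
    exists_small m (4 * s) (2 ^ (4 * s)) A (by omega) (by positivity) hcard
  refine ⟨cz, fun k => by exact_mod_cast hcz1 k, ⟨j, hj, by exact_mod_cast hj'⟩,
    fun i hi r hr => ?_⟩
  have hm0 : 0 < m := by rw [hm]; positivity
  rcases node_cell m T i r with e | e | e
  · rw [e]
    refine (hczA i hi _ ?_).trans ?_
    · rw [abs_of_nonneg (by positivity)]
      have hT : (0 : ℝ) < T := by exact_mod_cast (by omega : 0 < T)
      rw [div_le_one (by positivity)]
      have : (r : ℝ) ≤ T := by exact_mod_cast hr.le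
      nlinarith [Real.pi_le_four, Real.pi_pos]
    · subst hm
      push_cast
      have hu : (s : ℝ) ≤ 2 ^ s := by exact_mod_cast (Nat.lt_two_pow_self (n := s)).le
      have hu16 : (16 : ℝ) ≤ 2 ^ s :=
        le_trans (le_of_eq (by norm_num)) (pow_le_pow_right₀ (by norm_num) hs (a := (2 : ℝ)))
      have e4 : (2 : ℝ) ^ (4 * s) = (2 ^ s) ^ 4 := by rw [← pow_mul]; ring_nf
      have e2 : (2 : ℝ) ^ (2 * s) = (2 ^ s) ^ 2 := by rw [← pow_mul]; ring_nf
      rw [e4, e2]
      set u : ℝ := 2 ^ s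
      have hu0 : 0 < u := by linarith
      rw [show 4 * (s : ℝ) * (2 / u ^ 4) + u * (4 / u ^ 4) = (8 * s + 4 * u) / u ^ 4 by ring,
        div_le_div_iff₀ (by positivity) (by positivity)]
      nlinarith [mul_le_mul_of_nonneg_left hu16 (by positivity : 0 ≤ u ^ 3), pow_pos hu0 3]
  · omega
  · omega

/-- An integer sequence with small weighted energy leaves too many annihilated windows. -/
lemma window_contra {N m R : ℕ} {a δ κ : ℝ} {x cc : ℕ → ℝ}
    (hx : ∀ k < N, x k = 1 ∨ x k = -1) (hsup : ∀ θ, ‖lit N x θ‖ ^ 2 ≤ 4 * N)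
    (hcz : ∀ k, ∃ z : ℤ, cc k = z) (hcc0 : ∃ j < m, cc j ≠ 0) (hmR : m ≤ R)
    (hδ : 0 < δ) (haδ : 0 ≤ a - δ) (haδ1 : a + δ ≤ 1) (hNR : (R : ℝ) + 4 ≤ δ * N)
    (hy2 : ∑ k ∈ range (m + N), conv m cc (trunc N x) k ^ 2 * trap a δ ((k : ℝ) / N) ≤
      2 * κ ^ 2 * N)
    (hsmall : (R : ℝ) * (2 * κ ^ 2 * N) ≤ δ * N / 4) :
    (R : ℝ) * (δ * N / 4) ≤ m * (4 * N) := by
  classical
  have hN0 : 0 < N := Nat.pos_of_ne_zero fun h => by
    rw [h, Nat.cast_zero, mul_zero] at hNR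
    linarith [Nat.cast_nonneg (α := ℝ) R]
  have hNr : (0 : ℝ) < N := by exact_mod_cast hN0
  set y := conv m cc (trunc N x) with hy
  set k0 := ⌈(a - δ) * N⌉₊ with hk0
  set L := ⌊δ * N⌋₊ with hL
  have hk0r : (a - δ) * N ≤ k0 ∧ (k0 : ℝ) < (a - δ) * N + 1 :=
    ⟨Nat.le_ceil _, Nat.ceil_lt_add_one (by positivity)⟩
  have hLr : δ * N - 1 < L ∧ (L : ℝ) ≤ δ * N :=
    ⟨by linarith [Nat.lt_floor_add_one (δ * N)], Nat.floor_le (by positivity)⟩
  set S := Finset.Ico k0 (k0 + L) with hS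
  have hin : ∀ k ∈ S, ∀ i ≤ R, (a - δ) * N ≤ ((k + i : ℕ) : ℝ) ∧
      ((k + i : ℕ) : ℝ) ≤ (a + δ) * N := by
    intro k hk i hi
    obtain ⟨h1, h2⟩ := Finset.mem_Ico.1 hk
    have h1' : (k0 : ℝ) ≤ k := by exact_mod_cast h1
    have h2' : (k : ℝ) + 1 ≤ k0 + L := by exact_mod_cast h2
    have h3 : (i : ℝ) ≤ R := by exact_mod_cast hi
    push_cast
    constructor <;> nlinarith [Nat.cast_nonneg (α := ℝ) i]
  have hinN : ∀ k ∈ S, k + R ≤ N := fun k hk => by
    have := (hin k hk R le_rfl).2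
    have : ((k + R : ℕ) : ℝ) ≤ N := this.trans (by nlinarith)
    exact_mod_cast this
  set bad := (range (m + N)).filter fun n : ℕ => |(n : ℝ) / N - a| ≤ δ ∧ y n ≠ 0 with hbad
  have hyint : ∀ n, ∃ z : ℤ, y n = z := by
    intro n
    have : ∀ j, ∃ z : ℤ, (if j ≤ n then cc j * trunc N x (n - j) else 0) = z := by
      intro j
      obtain ⟨zc, hzc⟩ := hcz j
      simp only [trunc, hzc]
      split_ifs with h1 h2
      · rcases hx _ h2 with h | h
        · exact ⟨zc, by simp [h]⟩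
        · exact ⟨-zc, by simp [h]⟩
      · exact ⟨0, by simp⟩
      · exact ⟨0, by simp⟩
    choose z hz using this
    exact ⟨∑ j ∈ range m, z j, by simp only [hy, conv, hz, Int.cast_sum]⟩
  have hbadc : (bad.card : ℝ) ≤ 2 * κ ^ 2 * N := by
    refine le_trans ?_ hy2
    refine le_trans ?_ (sum_le_sum_of_subset_of_nonneg (filter_subset _ _ : bad ⊆ range (m + N))
      fun _ _ _ => mul_nonneg (sq_nonneg _) (trap_nonneg _ _ _))
    rw [← mul_one (bad.card : ℝ), ← nsmul_eq_mul]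
    refine card_nsmul_le_sum _ _ _ fun n hn => ?_
    obtain ⟨-, hn1, hn2⟩ := mem_filter.1 hn
    rw [trap_eq_one hδ hn1, mul_one]
    obtain ⟨z, hz⟩ := hyint n
    rw [hz] at hn2 ⊢
    have : z ≠ 0 := by exact_mod_cast hn2
    have h1 : (1 : ℤ) ≤ z ^ 2 := by nlinarith [sq_pos_of_ne_zero this]
    exact_mod_cast h1
  set G := S.filter fun k => ∀ i, m ≤ i → i < R → y (k + i) = 0 with hG
  have hSG : ((S \ G).card : ℝ) ≤ R * (2 * κ ^ 2 * N) := by
    refine le_trans ?_ (mul_le_mul_of_nonneg_left hbadc (Nat.cast_nonneg R))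
    have hsub : S \ G ⊆ (range R).biUnion fun i => bad.image fun n => n - i := by
      intro k hk
      obtain ⟨hkS, hk'⟩ := mem_sdiff.1 hk
      have : ¬ ∀ i, m ≤ i → i < R → y (k + i) = 0 := fun h => hk' (mem_filter.2 ⟨hkS, h⟩)
      push Not at this
      obtain ⟨i, -, hiR, hne⟩ := this
      refine mem_biUnion.2 ⟨i, mem_range.2 hiR, mem_image.2 ⟨k + i, ?_, by omega⟩⟩
      obtain ⟨h1, h2⟩ := hin k hkS i hiR.le
      refine mem_filter.2 ⟨mem_range.2 (by have := hinN k hkS; omega), ?_, hne⟩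
      rw [abs_le, le_sub_iff_add_le, sub_le_iff_le_add, le_div_iff₀ hNr, div_le_iff₀ hNr]
      constructor <;> nlinarith
    have h1 := (card_le_card hsub).trans card_biUnion_le
    have h2 : ∑ i ∈ range R, (bad.image fun n => n - i).card ≤ R * bad.card := by
      refine (sum_le_card_nsmul _ _ bad.card fun i _ => card_image_le).trans ?_
      simp
    exact_mod_cast h1.trans h2
  have hfin := annihilated_card_le hsup
    (fun k hk => by rcases hx k hk with h | h <;> rw [h] <;> norm_num)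
    hmR hcc0 G (fun k hk => hinN k (mem_filter.1 hk).1)
    (fun k hk i hi hiR => (mem_filter.1 hk).2 i hi hiR)
  have hScard : (S.card : ℝ) = L := by rw [hS, Nat.card_Ico]; simp
  have hsplit : ((S \ G).card : ℝ) + G.card = S.card := by
    exact_mod_cast card_sdiff_add_card_eq_card (filter_subset _ S)
  refine le_trans ?_ hfin
  rw [mul_comm (G.card : ℝ)]
  refine mul_le_mul_of_nonneg_left ?_ (Nat.cast_nonneg R)
  linarith [hLr.1, Nat.cast_nonneg (α := ℝ) R]

/-- Main theorem: near ultraflatness forces large variation of the phase speed at every time. -/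
theorem variation_gt (α β M : ℝ) (hα : 0 ≤ α) (hαβ : α < β) (hβ : β ≤ 1) :
    ∃ c : ℝ, 0 < c ∧ ∃ N0 : ℕ, ∀ N : ℕ, N0 ≤ N → ∀ x : ℕ → ℝ,
      (∀ k < N, x k = 1 ∨ x k = -1) → Flat N c x →
      ENNReal.ofReal M <
        eVariationOn (fun θ => max α (min β (speed N x θ))) (Set.Icc 0 (2 * π)) := by
  classical
  obtain ⟨s, hs4, hsM, hs40, hsab⟩ := exists_param α β M hαβ
  set δ : ℝ := 1 / 2 ^ 15 / (s : ℝ) ^ 2 with hδ
  set m : ℕ := 2 ^ s with hm
  set κ : ℝ := 1 / 2 ^ (2 * s) with hκ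
  set R : ℕ := 2 ^ 20 * s ^ 2 * m with hR
  have hsr0 : (0 : ℝ) < s := by exact_mod_cast (by omega : 0 < s)
  have hmr : (m : ℝ) = 2 ^ s := by rw [hm]; push_cast; rfl
  have hδ0 : 0 < δ := by rw [hδ]; positivity
  have hκ0 : 0 < κ := by rw [hκ]; positivity
  have hm0 : 0 < m := by rw [hm]; positivity
  have hmpos : (0 : ℝ) < m := by exact_mod_cast hm0
  set a : ℝ := (α + β) / 2 with ha
  have h4δ : 4 * δ ≤ (β - α) / 2 := le_trans (le_of_eq (by rw [hδ]; ring)) hsab
  obtain ⟨c1, hc1, N1, H1⟩ := matches_continuous m (continuous_trap a δ) (κ ^ 2) (by positivity)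
  obtain ⟨c2, hc2, N2, H2⟩ := mass_le a hδ0
  refine ⟨min (min c1 c2) 1, lt_min (lt_min hc1 hc2) one_pos,
    max (max N1 N2) (⌈((R : ℝ) + 4) / δ⌉₊ + 1), fun N hN x hx hflat => ?_⟩
  have hN1 : N1 ≤ N := le_trans (le_trans (le_max_left _ _) (le_max_left _ _)) hN
  have hN2 : N2 ≤ N := le_trans (le_trans (le_max_right _ _) (le_max_left _ _)) hN
  have hN3 : ⌈((R : ℝ) + 4) / δ⌉₊ + 1 ≤ N := le_trans (le_max_right _ _) hN
  have hNr : (0 : ℝ) < N := by exact_mod_cast (by omega : 0 < N)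
  have hNR : (R : ℝ) + 4 ≤ δ * N := by
    have h := Nat.le_ceil (((R : ℝ) + 4) / δ)
    have h' : (⌈((R : ℝ) + 4) / δ⌉₊ : ℝ) + 1 ≤ N := by exact_mod_cast hN3
    rw [div_le_iff₀ hδ0] at h
    nlinarith
  have hf1 : Flat N c1 x := hflat.mono (le_trans (min_le_left _ _) (min_le_left _ _))
  have hf2 : Flat N c2 x := hflat.mono (le_trans (min_le_left _ _) (min_le_right _ _))
  have hsup : ∀ θ, ‖lit N x θ‖ ^ 2 ≤ 4 * N := fun θ => by
    have := pow_le_pow_left₀ (norm_nonneg _) ((hflat.mono (min_le_right _ _)) θ).2 2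
    rw [mul_pow, Real.sq_sqrt hNr.le] at this
    linarith
  by_contra hcon
  push Not at hcon
  set T : ℕ := m + N with hT
  have hT0 : 0 < T := by omega
  set Q : ℕ := 8 * m * T with hQ
  have hmQ : m + N ≤ Q := by
    have : 1 * T ≤ 8 * m * T := Nat.mul_le_mul_right T (by omega)
    omega
  have hQ0 : 0 < Q := by omega
  set A := (range (8 * m)).filter fun i =>
    ∃ r < T, |speed N x (node Q (i * T + r)) - a| < 2 * δ with hA
  have hmass : ∑ j ∈ range (8 * m * T), trap a (4 * δ) (speed N x (node Q j)) ≤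
      (144 * m * δ) * T := by
    refine (H2 N hN2 x hx hf2 Q (by omega)).trans (le_of_eq ?_)
    rw [hQ]; push_cast; ring
  have hAc : (A.card : ℝ) ≤ 144 * m * δ + max M 0 / (2 * δ) :=
    active_card_le (g := fun j => max α (min β (speed N x (node Q j))))
      (t := fun j => speed N x (node Q j))
      hδ0 (fun j j' => clamp_gap hδ0 (by linarith) (by linarith))
      (fun r r' hr => grid_variation hQ hQ0 hcon r r' hr) hT0 hmass
  have hbits : 48 * s ^ 2 * A.card < m := by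
    have h1 : 48 * (s : ℝ) ^ 2 * A.card ≤ 48 * (s : ℝ) ^ 2 * (144 * m * δ + max M 0 / (2 * δ)) :=
      mul_le_mul_of_nonneg_left hAc (by positivity)
    have h2 : 48 * (s : ℝ) ^ 2 * (144 * m * δ + max M 0 / (2 * δ)) =
        6912 / 2 ^ 15 * m + 24 * 2 ^ 15 * max M 0 * (s : ℝ) ^ 4 := by
      rw [hδ]; field_simp; ring
    have h3 : max M 0 ≤ |M| := max_le (le_abs_self M) (abs_nonneg M)
    have h5 : 24 * 2 ^ 15 * max M 0 * (s : ℝ) ^ 4 ≤ 24 / 64 * m := by
      rw [hmr]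
      have := mul_le_mul_of_nonneg_right h3 (pow_nonneg hsr0.le 4)
      nlinarith
    have h4 : ((48 * s ^ 2 * A.card : ℕ) : ℝ) < (m : ℝ) := by push_cast; nlinarith
    exact_mod_cast h4
  obtain ⟨cz, hcc1, hcc0, hsm⟩ := exists_annihilator hs4 hm (T := T) A hbits
  have hy2 : ∑ k ∈ range (m + N), conv m (fun k => (cz k : ℝ)) (trunc N x) k ^ 2 *
      trap a δ ((k : ℝ) / N) ≤ 2 * κ ^ 2 * N := by
    have h := H1 N hN1 x hf1 _ hcc1 Q hmQ
    have hQr : (0 : ℝ) < Q := by exact_mod_cast hQ0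
    have e : (∑ j ∈ range Q, ‖lit m (fun k => (cz k : ℝ)) (node Q j)‖ ^ 2 *
        trap a δ (speed N x (node Q j))) / Q ≤ κ ^ 2 := by
      rw [div_le_iff₀ hQr]
      refine (sum_le_card_nsmul _ _ (κ ^ 2) ?_).trans (le_of_eq (by simp [mul_comm]))
      intro j hj
      have hdiv := Nat.div_add_mod' j T
      have hi : j / T < 8 * m := Nat.div_lt_of_lt_mul (lt_of_lt_of_eq (mem_range.1 hj)
        (hQ.trans (mul_comm _ _)))
      by_cases ht : |speed N x (node Q j) - a| < 2 * δ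
      · have hmemA : j / T ∈ A := mem_filter.2 ⟨mem_range.2 hi, j % T, Nat.mod_lt _ hT0,
          by rw [hdiv]; exact ht⟩
        have := hsm _ hmemA _ (Nat.mod_lt j hT0)
        rw [hdiv, ← hQ, ← hκ] at this
        calc ‖lit m (fun k => (cz k : ℝ)) (node Q j)‖ ^ 2 * trap a δ (speed N x (node Q j))
            ≤ κ ^ 2 * 1 := mul_le_mul (pow_le_pow_left₀ (norm_nonneg _) this 2)
                (trap_le_one _ _ _) (trap_nonneg _ _ _) (sq_nonneg _)
          _ = κ ^ 2 := mul_one _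
      · rw [trap_eq_zero hδ0 (not_lt.1 ht), mul_zero]; positivity
    have h' := (abs_le.1 h).1
    have : (∑ k ∈ range (m + N), conv m (fun k => (cz k : ℝ)) (trunc N x) k ^ 2 *
        trap a δ ((k : ℝ) / N)) / N ≤ 2 * κ ^ 2 := by linarith
    rwa [div_le_iff₀ hNr] at this
  have hbadsmall : (R : ℝ) * (2 * κ ^ 2 * N) ≤ δ * N / 4 := by
    have e : (R : ℝ) * (2 * κ ^ 2 * N) = 2 ^ 21 * (s : ℝ) ^ 2 * N / ((2 : ℝ) ^ s) ^ 3 := by
      rw [hR, hκ]
      push_cast
      rw [hmr, show (2 : ℝ) ^ (2 * s) = (2 ^ s) ^ 2 by rw [← pow_mul, mul_comm]]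
      field_simp
      ring
    rw [e, hδ, show 1 / 2 ^ 15 / (s : ℝ) ^ 2 * N / 4 = N / (2 ^ 17 * (s : ℝ) ^ 2) by ring,
      div_le_div_iff₀ (by positivity) (by positivity)]
    have h1 : (1 : ℝ) ≤ 2 ^ s := one_le_pow₀ (by norm_num)
    have h3 : (2 : ℝ) ^ 38 * (s : ℝ) ^ 4 ≤ (2 ^ s) ^ 3 := by
      refine le_trans ?_ (le_self_pow₀ h1 (by norm_num))
      refine le_trans ?_ hs40
      gcongr <;> norm_num
    have h3' := mul_le_mul_of_nonneg_right h3 hNr.le
    calc 2 ^ 21 * (s : ℝ) ^ 2 * N * (2 ^ 17 * (s : ℝ) ^ 2) = 2 ^ 38 * (s : ℝ) ^ 4 * N := by ring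
      _ ≤ (2 ^ s) ^ 3 * (N : ℝ) := h3'
      _ = _ := by ring
  have hmR : m ≤ R := by
    rw [hR]; exact Nat.le_mul_of_pos_left m (by positivity)
  have hGR := window_contra hx hsup (fun k => ⟨cz k, rfl⟩) hcc0 hmR hδ0
    (by linarith) (by linarith) hNR hy2 hbadsmall
  have eR : (R : ℝ) * (δ * N / 4) = 8 * m * N := by
    rw [hR, hδ]; push_cast; field_simp; ring
  rw [eR] at hGR
  nlinarith [mul_pos hmpos hNr]

end Vale.Agent.P110
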