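import Mathlib

/-!
# P110: almost unimodular entire functions of exponential type in a strip

If `‖F u‖ ≤ 2 e^{|Im u|}` and `F u * F (-u)` is within `1/2` of `1` on a wide strip, then the
logarithmic derivative is bounded and slowly varying near the real axis.
-/

namespace Vale.Agent.P110

open Complex Metric
open scoped Real

/-- The strip `|Im u| < W`. -/
def strip (W : ℝ) : Set ℂ := {u : ℂ | |u.im| < W}

lemma isOpen_strip (W : ℝ) : IsOpen (strip W) :=
  isOpen_lt (continuous_abs.comp Complex.continuous_im) continuous_const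

lemma strip_mono {V W : ℝ} (h : V ≤ W) : strip V ⊆ strip W :=
  fun _ hu => lt_of_lt_of_le hu h

/-- `-i` times the logarithmic derivative. -/
noncomputable def logd (F : ℂ → ℂ) (u : ℂ) : ℂ := -I * deriv F u / F u

/-- The coefficients `a j` with `(-i d/du)^j (p F) = a j * F`. -/
noncomputable def iter (F p : ℂ → ℂ) : ℕ → ℂ → ℂ
  | 0 => p
  | j + 1 => fun u => -I * deriv (iter F p j) u + logd F u * iter F p j u

/-- The hypotheses on `F`. -/
structure Flatish (F : ℂ → ℂ) (Y : ℝ) : Prop where
  diff : Differentiable ℂ F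
  big : 8 ≤ Y
  upper : ∀ u, ‖F u‖ ≤ 2 * Real.exp |u.im|
  near : ∀ u ∈ strip Y, ‖F u * F (-u) - 1‖ ≤ 1 / 2

variable {F p : ℂ → ℂ} {Y : ℝ}

lemma Flatish.lower (h : Flatish F Y) {u : ℂ} (hu : u ∈ strip Y) :
    1 ≤ 4 * Real.exp Y * ‖F u‖ := by
  have h1 : 1 - ‖F u * F (-u)‖ ≤ 1 / 2 := by
    refine le_trans ?_ (h.near u hu)
    rw [norm_sub_rev]
    simpa using norm_sub_norm_le (1 : ℂ) (F u * F (-u))
  have h2 : ‖F (-u)‖ ≤ 2 * Real.exp Y := by
    refine (h.upper _).trans ?_
    gcongr
    simpa using (le_of_lt hu : |u.im| ≤ Y)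
  rw [norm_mul] at h1
  have := mul_le_mul_of_nonneg_left h2 (norm_nonneg (F u))
  nlinarith

lemma Flatish.ne_zero (h : Flatish F Y) {u : ℂ} (hu : u ∈ strip Y) : F u ≠ 0 := by
  intro h0
  have := h.lower hu
  rw [h0, norm_zero, mul_zero] at this
  linarith

lemma Flatish.differentiableOn_logd (h : Flatish F Y) : DifferentiableOn ℂ (logd F) (strip Y) :=
  (((h.diff.differentiableOn).deriv (isOpen_strip Y)).const_mul (-I)).div h.diff.differentiableOn
    (fun _ hu => h.ne_zero hu)

lemma Flatish.norm_logd_le (h : Flatish F Y) {u : ℂ} (hu : |u.im| ≤ Y / 2) :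
    ‖logd F u‖ ≤ 24 := by
  have hY : 8 ≤ Y := h.big
  set R := Y / 2 with hR
  have hR0 : 0 < R := by linarith
  have hin : ∀ z ∈ ball (0 : ℂ) R, u + z ∈ strip Y := by
    intro z hz
    rw [mem_ball_zero_iff] at hz
    show |(u + z).im| < Y
    have := abs_im_le_norm z
    have := abs_add_le u.im z.im
    rw [add_im]
    linarith
  have hd : ∀ z, HasDerivAt (fun w => F (u + w)) (deriv F (u + z)) z := fun z =>
    ((h.diff (u + z)).hasDerivAt).comp_const_add u z
  set g : ℂ → ℂ := fun z => deriv F (u + z) / F (u + z) with hg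
  have hshift : DifferentiableOn ℂ (fun z => u + z) (ball 0 R) := by fun_prop
  have hgd : DifferentiableOn ℂ g (ball 0 R) :=
    (((h.diff.differentiableOn).deriv (isOpen_strip Y)).comp hshift hin).div
      (h.diff.comp (by fun_prop)).differentiableOn (fun z hz => h.ne_zero (hin z hz))
  obtain ⟨L, hL0, hL⟩ := hgd.isExactOn_ball.with_val_at 0 0
  have hLd : DifferentiableOn ℂ L (ball 0 R) :=
    fun z hz => (hL z hz).differentiableAt.differentiableWithinAt
  have hconst : ∀ z ∈ ball (0 : ℂ) R, F (u + z) * exp (-L z) = F u := by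
    intro z hz
    have key : ∀ w ∈ ball (0 : ℂ) R,
        HasDerivWithinAt (fun w => F (u + w) * exp (-L w)) 0 (ball 0 R) w := by
      intro w hw
      have h1 := (hd w).mul (hL w hw).neg.cexp
      refine (h1.congr_deriv ?_).hasDerivWithinAt
      have := h.ne_zero (hin w hw)
      simp only [hg]
      field_simp
      ring
    have h2 := (convex_ball (0 : ℂ) R).norm_image_sub_le_of_norm_hasDerivWithin_le key
      (C := 0) (fun w _ => by simp) (mem_ball_self hR0) hz
    simp only [zero_mul, norm_le_zero_iff, sub_eq_zero, add_zero, hL0, neg_zero, exp_zero,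
      mul_one] at h2
    exact h2
  have hRe : Set.MapsTo L (ball 0 R) {w | w.re ≤ 3 * Y} := by
    intro z hz
    have h1 := congrArg norm (hconst z hz)
    rw [norm_mul, norm_exp, neg_re] at h1
    have h2 : ‖F (u + z)‖ ≤ 2 * Real.exp Y := by
      refine (h.upper _).trans ?_
      gcongr
      exact le_of_lt (hin z hz)
    have h3 := h.lower (show u ∈ strip Y from lt_of_le_of_lt hu (by linarith))
    have h4 : Real.exp (L z).re * Real.exp (-(L z).re) = 1 := by
      rw [← Real.exp_add, add_neg_cancel, Real.exp_zero]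
    have h5 : Real.exp (L z).re ≤ 4 * Real.exp Y * (2 * Real.exp Y) := by
      have e : Real.exp (L z).re * ‖F u‖ = ‖F (u + z)‖ := by
        rw [← h1, mul_comm ‖F (u + z)‖, ← mul_assoc, h4, one_mul]
      have := mul_le_mul_of_nonneg_left h3 (Real.exp_pos (L z).re).le
      have := mul_le_mul_of_nonneg_left (e.trans_le h2)
        (by positivity : (0 : ℝ) ≤ 4 * Real.exp Y)
      nlinarith
    have h6 : 4 * Real.exp Y * (2 * Real.exp Y) ≤ Real.exp (3 * Y) := by
      rw [show 3 * Y = Y + Y + Y by ring, Real.exp_add, Real.exp_add]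
      have : 8 ≤ Real.exp Y := by linarith [Real.add_one_le_exp Y]
      nlinarith [Real.exp_pos Y, mul_pos (Real.exp_pos Y) (Real.exp_pos Y)]
    exact Real.exp_le_exp.1 (h5.trans h6)
  have hball : closedBall (0 : ℂ) (R / 2) ⊆ ball 0 R := closedBall_subset_ball (by linarith)
  have hsphere : ∀ z ∈ sphere (0 : ℂ) (R / 2), ‖L z‖ ≤ 6 * Y := by
    intro z hz
    have hzR := hball (sphere_subset_closedBall hz)
    have hnorm : ‖z‖ = R / 2 := mem_sphere_zero_iff_norm.1 hz
    refine (borelCaratheodory_zero (by linarith) hLd hRe hR0 hzR hL0).trans ?_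
    rw [hnorm, show R - R / 2 = R / 2 by ring, mul_div_assoc, div_self (by linarith : R / 2 ≠ 0)]
    linarith
  have hder := norm_deriv_le_of_forall_mem_sphere_norm_le (by linarith : 0 < R / 2)
    (DifferentiableOn.diffContOnCl ((hLd.mono hball).mono
      (closure_ball_subset_closedBall))) hsphere
  rw [(hL 0 (mem_ball_self hR0)).deriv] at hder
  simp only [hg, add_zero] at hder
  rw [logd, mul_div_assoc, norm_mul, norm_neg, norm_I, one_mul]
  refine hder.trans (le_of_eq ?_)
  rw [hR]
  field_simp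
  ring

/-- Cauchy's estimate in a strip. -/
lemma norm_deriv_strip {g : ℂ → ℂ} {W V B : ℝ} (hVW : V < W)
    (hg : DifferentiableOn ℂ g (strip W)) (hb : ∀ u ∈ strip W, ‖g u‖ ≤ B) {u : ℂ}
    (hu : u ∈ strip V) : ‖deriv g u‖ ≤ B / (W - V) := by
  have hsub : closedBall u (W - V) ⊆ strip W := by
    intro z hz
    rw [mem_closedBall, dist_eq_norm] at hz
    show |z.im| < W
    have hu' : |u.im| < V := hu
    have h1 := abs_im_le_norm (z - u)
    rw [sub_im] at h1
    have := abs_add_le (z.im - u.im) u.im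
    rw [sub_add_cancel] at this
    linarith
  exact norm_deriv_le_of_forall_mem_sphere_norm_le (sub_pos.2 hVW)
    (DifferentiableOn.diffContOnCl (hg.mono (closure_ball_subset_closedBall.trans hsub)))
    fun z hz => hb z (hsub (sphere_subset_closedBall hz))

/-- The iterated coefficients stay bounded and close to `p * (logd F)^j`. -/
lemma Flatish.iter_bound (h : Flatish F Y) (hp : Differentiable ℂ p) {A : ℝ}
    (hA : ∀ u ∈ strip Y, ‖p u‖ ≤ A) :
    ∀ j : ℕ, 2 ^ (j + 2) ≤ Y →
      DifferentiableOn ℂ (iter F p j) (strip (Y / 2 ^ (j + 1))) ∧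
      (∀ u ∈ strip (Y / 2 ^ (j + 1)), ‖iter F p j u‖ ≤ A * 25 ^ j) ∧
      (∀ u ∈ strip (Y / 2 ^ (j + 1)),
        ‖iter F p j u - logd F u ^ j * p u‖ ≤ A * (4 * 50 ^ j) / Y) := by
  have hY : 0 < Y := by linarith [h.big]
  have hsub : ∀ j : ℕ, strip (Y / 2 ^ (j + 1)) ⊆ strip Y := fun j =>
    strip_mono (div_le_self hY.le (one_le_pow₀ (by norm_num)))
  intro j
  induction j with
  | zero =>
    intro _
    refine ⟨hp.differentiableOn, fun u hu => ?_, fun u hu => ?_⟩
    · simpa [iter] using hA u (hsub 0 hu)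
    · have h0 : 0 ≤ A := le_trans (norm_nonneg _) (hA u (hsub 0 hu))
      simp [iter]
      positivity
  | succ j ih =>
    intro hj
    have hj' : (2 : ℝ) ^ (j + 2) ≤ Y :=
      le_trans (pow_le_pow_right₀ (by norm_num) (Nat.le_succ _)) hj
    obtain ⟨ihd, ihb, ihe⟩ := ih hj'
    set W := Y / 2 ^ (j + 1) with hW
    set V := Y / 2 ^ (j + 1 + 1) with hV
    have hVW' : W - V = Y / 2 ^ (j + 2) := by
      rw [hW, hV, pow_succ _ (j + 1)]
      field_simp
      ring
    have hVW : V < W := by
      have : 0 < W - V := by rw [hVW']; positivity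
      linarith
    have hVsub : strip V ⊆ strip W := strip_mono hVW.le
    have hlog : ∀ u ∈ strip V, ‖logd F u‖ ≤ 24 := fun u hu => by
      refine h.norm_logd_le (le_of_lt ?_)
      refine lt_of_lt_of_le hu ?_
      rw [hV]
      refine div_le_div_of_nonneg_left hY.le (by norm_num) ?_
      calc (2 : ℝ) = 2 ^ 1 := (pow_one _).symm
        _ ≤ 2 ^ (j + 1 + 1) := pow_le_pow_right₀ (by norm_num) (by omega)
    have hder : ∀ u ∈ strip V, ‖deriv (iter F p j) u‖ ≤ A * 25 ^ j * (2 ^ (j + 2) / Y) := by
      intro u hu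
      refine (norm_deriv_strip hVW ihd ihb hu).trans (le_of_eq ?_)
      rw [hVW', div_div_eq_mul_div, mul_div_assoc]
    have hone : 2 ^ (j + 2) / Y ≤ 1 := (div_le_one hY).2 hj'
    refine ⟨?_, fun u hu => ?_, fun u hu => ?_⟩
    · refine DifferentiableOn.add ?_ ?_
      · exact ((ihd.deriv (isOpen_strip W)).mono hVsub).const_mul _
      · exact (h.differentiableOn_logd.mono (hVsub.trans (hsub j))).mul (ihd.mono hVsub)
    · have h0 : 0 ≤ A := le_trans (norm_nonneg _) (hA u (hsub j (hVsub hu)))
      calc ‖iter F p (j + 1) u‖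
          ≤ ‖deriv (iter F p j) u‖ + ‖logd F u‖ * ‖iter F p j u‖ := by
            simp only [iter]
            refine (norm_add_le _ _).trans (le_of_eq ?_)
            simp [norm_mul]
        _ ≤ A * 25 ^ j * 1 + 24 * (A * 25 ^ j) := by
            refine add_le_add ((hder u hu).trans ?_) ?_
            · exact mul_le_mul_of_nonneg_left hone (by positivity)
            · exact mul_le_mul (hlog u hu) (ihb u (hVsub hu)) (norm_nonneg _) (by norm_num)
        _ = A * 25 ^ (j + 1) := by ring
    · have h0 : 0 ≤ A := le_trans (norm_nonneg _) (hA u (hsub j (hVsub hu)))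
      calc ‖iter F p (j + 1) u - logd F u ^ (j + 1) * p u‖
          = ‖-I * deriv (iter F p j) u +
              logd F u * (iter F p j u - logd F u ^ j * p u)‖ := by
            simp only [iter]; ring_nf
        _ ≤ A * 25 ^ j * (2 ^ (j + 2) / Y) + 24 * (A * (4 * 50 ^ j) / Y) := by
            refine (norm_add_le _ _).trans (add_le_add ?_ ?_)
            · simpa [norm_mul] using hder u hu
            · rw [norm_mul]
              exact mul_le_mul (hlog u hu) (ihe u (hVsub hu)) (norm_nonneg _) (by norm_num)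
        _ = A * (4 * 50 ^ j + 96 * 50 ^ j) / Y := by
            rw [show (50 : ℝ) = 25 * 2 by norm_num, mul_pow]
            ring
        _ ≤ A * (4 * 50 ^ (j + 1)) / Y := by
            gcongr
            rw [pow_succ]
            linarith [pow_pos (by norm_num : (0 : ℝ) < 50) j]

/-- A family with `S (j+1) = -i (S j)'` starting at `p F` is given by the iterated coefficients. -/
lemma Flatish.family_eq (h : Flatish F Y) (hp : Differentiable ℂ p) {A : ℝ}
    (hA : ∀ u ∈ strip Y, ‖p u‖ ≤ A) {S : ℕ → ℂ → ℂ} (hS0 : ∀ u, S 0 u = p u * F u)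
    (hS : ∀ j u, S (j + 1) u = -I * deriv (S j) u) :
    ∀ j : ℕ, 2 ^ (j + 2) ≤ Y → ∀ u ∈ strip (Y / 2 ^ (j + 1)), S j u = iter F p j u * F u := by
  intro j
  induction j with
  | zero => intro _ u _; exact hS0 u
  | succ j ih =>
    intro hj u hu
    have hY : 0 < Y := by linarith [h.big]
    have hj' : (2 : ℝ) ^ (j + 2) ≤ Y :=
      le_trans (pow_le_pow_right₀ (by norm_num) (Nat.le_succ _)) hj
    have hu' : u ∈ strip (Y / 2 ^ (j + 1)) :=
      strip_mono (div_le_div_of_nonneg_left hY.le (by positivity)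
        (pow_le_pow_right₀ (by norm_num) (Nat.le_succ _))) hu
    have hev : S j =ᶠ[nhds u] fun v => iter F p j v * F v :=
      Filter.eventually_of_mem ((isOpen_strip _).mem_nhds hu') (ih hj')
    have hd : DifferentiableAt ℂ (iter F p j) u :=
      (h.iter_bound hp hA j hj').1.differentiableAt ((isOpen_strip _).mem_nhds hu')
    have hne : F u ≠ 0 := h.ne_zero (strip_mono
      (div_le_self hY.le (one_le_pow₀ (by norm_num))) hu')
    rw [hS, hev.deriv_eq, deriv_fun_mul hd (h.diff u)]
    simp only [iter, logd]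
    field_simp
    ring

end Vale.Agent.P110
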