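import Vale.Agent.P110.Trig
import Vale.Agent.P110.Strip

/-!
# P110: localisation of moments for nearly ultraflat polynomials

For a fixed short multiplier `c` and the product `y = c * x`, the distribution of `y_k ^ 2` in
`k / N` matches the distribution of the phase speed weighted by `|c(e^{iθ})| ^ 2`.
-/

namespace Vale.Agent.P110

open Complex Finset
open scoped Real ComplexConjugate

/-- Near flatness: `(1-c) √N ≤ |P| ≤ (1+c) √N` on the circle. -/
def Flat (N : ℕ) (c : ℝ) (x : ℕ → ℝ) : Prop :=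
  ∀ θ : ℝ, (1 - c) * √(N : ℝ) ≤ ‖lit N x θ‖ ∧ ‖lit N x θ‖ ≤ (1 + c) * √(N : ℝ)

lemma Flat.mono {N : ℕ} {c c' : ℝ} {x : ℕ → ℝ} (h : Flat N c x) (hc : c ≤ c') : Flat N c' x :=
  fun θ => ⟨le_trans (by nlinarith [Real.sqrt_nonneg (N : ℝ)]) (h θ).1,
    (h θ).2.trans (by nlinarith [Real.sqrt_nonneg (N : ℝ)])⟩

/-- Coefficients weighted by `(k/N)^i`. -/
noncomputable def wgt (N : ℕ) (a : ℕ → ℝ) (i k : ℕ) : ℝ := a k * ((k : ℝ) / N) ^ i

/-- The base point `e^{iu/N}`. -/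
noncomputable def zpt (N : ℕ) (u : ℂ) : ℂ := exp (u / N * I)

/-- Entire function of exponential type attached to coefficients `a`. -/
noncomputable def ent (N n : ℕ) (a : ℕ → ℝ) (u : ℂ) : ℂ := pw n a (zpt N u) / (√(N : ℝ) : ℂ)

/-- Reversed coefficients. -/
def rev (N : ℕ) (x : ℕ → ℝ) (k : ℕ) : ℝ := x (N - 1 - k)

lemma hasDerivAt_ent (N n : ℕ) (a : ℕ → ℝ) (i : ℕ) (u : ℂ) :
    HasDerivAt (ent N n (wgt N a i)) (I * ent N n (wgt N a (i + 1)) u) u := by
  have h : ∀ k ∈ range n, HasDerivAt (fun v : ℂ => (wgt N a i k : ℂ) * exp (v / N * I) ^ k)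
      (I * ((wgt N a (i + 1) k : ℂ) * exp (u / N * I) ^ k)) u := by
    intro k _
    have e : ∀ v : ℂ, exp (v / N * I) ^ k = exp (v * ((k : ℂ) / N * I)) := by
      intro v
      rw [← exp_nat_mul]
      ring_nf
    simp only [e]
    refine (((hasDerivAt_mul_const ((k : ℂ) / N * I)).cexp).const_mul
      (wgt N a i k : ℂ)).congr_deriv ?_
    simp only [wgt]
    push_cast
    ring
  have := (HasDerivAt.fun_sum h).div_const ((√(N : ℝ) : ℂ))
  refine this.congr_deriv ?_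
  simp only [ent, pw, zpt]
  rw [← mul_sum, mul_div_assoc]

lemma wgt_zero (N : ℕ) (a : ℕ → ℝ) : wgt N a 0 = a := by funext k; simp [wgt]

lemma deriv_ent (N n : ℕ) (a : ℕ → ℝ) (i : ℕ) (u : ℂ) :
    deriv (ent N n (wgt N a i)) u = I * ent N n (wgt N a (i + 1)) u :=
  (hasDerivAt_ent N n a i u).deriv

lemma differentiable_ent (N n : ℕ) (a : ℕ → ℝ) : Differentiable ℂ (ent N n a) := by
  have h := fun u => (hasDerivAt_ent N n a 0 u).differentiableAt
  rwa [wgt_zero] at h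

lemma zpt_real (N : ℕ) (hN : 0 < N) (θ : ℝ) :
    zpt N (((N : ℝ) * θ : ℝ) : ℂ) = exp ((θ : ℂ) * I) := by
  have : (N : ℂ) ≠ 0 := by exact_mod_cast hN.ne'
  simp only [zpt]
  congr 1
  push_cast
  field_simp

lemma ent_real (N n : ℕ) (hN : 0 < N) (a : ℕ → ℝ) (θ : ℝ) :
    ent N n a (((N : ℝ) * θ : ℝ) : ℂ) = lit n a θ / (√(N : ℝ) : ℂ) := by
  rw [ent, zpt_real N hN, lit_eq_pw]

lemma zpt_neg (N : ℕ) (u : ℂ) : zpt N (-u) = (zpt N u)⁻¹ := by
  rw [zpt, zpt, ← exp_neg]; ring_nf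

lemma norm_zpt (N : ℕ) (u : ℂ) : ‖zpt N u‖ = Real.exp (-(u.im / N)) := by
  rw [zpt, norm_exp]
  simp [Complex.div_natCast_re, Complex.div_natCast_im]

lemma conj_pw (n : ℕ) (a : ℕ → ℝ) (z : ℂ) : conj (pw n a z) = pw n a (conj z) := by
  simp [pw, map_sum, map_mul, map_pow, conj_ofReal]

lemma ent_neg_real (N n : ℕ) (a : ℕ → ℝ) (r : ℝ) :
    ent N n a (-(r : ℂ)) = conj (ent N n a r) := by
  simp only [ent, map_div₀, conj_ofReal, conj_pw]
  rw [zpt_neg]
  congr 2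
  rw [Complex.inv_eq_conj]
  rw [norm_zpt]; simp

lemma pw_rev (N : ℕ) (x : ℕ → ℝ) {z : ℂ} (hz : z ≠ 0) :
    pw N (rev N x) z = z ^ (N - 1) * pw N x z⁻¹ := by
  rw [pw, pw, ← sum_range_reflect (fun k => (x k : ℂ) * z⁻¹ ^ k), mul_sum]
  refine sum_congr rfl fun k hk => ?_
  have hk' : k ≤ N - 1 := by have := mem_range.1 hk; omega
  simp only [rev]
  conv_rhs => rw [inv_pow, ← mul_assoc, mul_comm (z ^ (N - 1)) _, mul_assoc,
    ← div_eq_mul_inv, show z ^ (N - 1) = z ^ (N - 1 - k) * z ^ k by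
      rw [← pow_add, Nat.sub_add_cancel hk'], mul_div_cancel_left₀ _ (pow_ne_zero _ hz)]

/-- Maximum modulus on the closed unit disc. -/
lemma disk_bound {q : ℂ → ℂ} (hq : Differentiable ℂ q) {C : ℝ}
    (h : ∀ θ : ℝ, ‖q (exp ((θ : ℂ) * I))‖ ≤ C) {z : ℂ} (hz : ‖z‖ ≤ 1) : ‖q z‖ ≤ C := by
  refine Complex.norm_le_of_forall_mem_frontier_norm_le
    (U := Metric.ball 0 1) Metric.isBounded_ball hq.diffContOnCl ?_ ?_
  · intro w hw
    rw [frontier_ball (0 : ℂ) one_ne_zero, mem_sphere_zero_iff_norm] at hw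
    obtain ⟨θ, rfl⟩ := (Complex.norm_eq_one_iff w).1 hw
    exact h θ
  · rw [closure_ball (0 : ℂ) one_ne_zero, Metric.mem_closedBall, dist_zero_right]
    exact hz

lemma differentiable_pw (n : ℕ) (a : ℕ → ℝ) : Differentiable ℂ (pw n a) := by
  unfold pw; fun_prop

lemma norm_lit_rev (N : ℕ) (x : ℕ → ℝ) (θ : ℝ) :
    ‖lit N (rev N x) θ‖ = ‖lit N x (-θ)‖ := by
  rw [lit_eq_pw, lit_eq_pw, pw_rev N x (exp_ne_zero _), norm_mul, norm_pow,
    norm_exp_ofReal_mul_I, one_pow, one_mul, ← exp_neg]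
  push_cast
  ring_nf

lemma norm_pow_le_exp {N : ℕ} {s : ℝ} (hs : 0 ≤ s) :
    Real.exp (s / N) ^ (N - 1) ≤ Real.exp s := by
  rw [← Real.exp_nat_mul]
  refine Real.exp_le_exp.2 ?_
  rcases Nat.eq_zero_or_pos N with rfl | hN
  · simpa using hs
  · have h1 : ((N - 1 : ℕ) : ℝ) ≤ N := by exact_mod_cast Nat.sub_le N 1
    calc ((N - 1 : ℕ) : ℝ) * (s / N) ≤ N * (s / N) :=
          mul_le_mul_of_nonneg_right h1 (by positivity)
      _ = s := by field_simp

variable {N : ℕ} {c : ℝ} {x : ℕ → ℝ}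

lemma Flat.norm_ent_le (h : Flat N c x) (hN : 0 < N) (hc : c ≤ 1) (u : ℂ) :
    ‖ent N N x u‖ ≤ 2 * Real.exp |u.im| := by
  have hs : 0 < √(N : ℝ) := Real.sqrt_pos.2 (by exact_mod_cast hN)
  have hb : ∀ θ, ‖lit N x θ‖ ≤ 2 * √(N : ℝ) := fun θ => (h θ).2.trans (by nlinarith)
  suffices hp : ‖pw N x (zpt N u)‖ ≤ 2 * √(N : ℝ) * Real.exp |u.im| by
    rw [ent, norm_div, norm_real, Real.norm_of_nonneg hs.le, div_le_iff₀ hs]
    linarith
  have he : 1 ≤ Real.exp |u.im| := Real.one_le_exp (abs_nonneg _)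
  rcases le_or_gt 0 u.im with hu | hu
  · have hz : ‖zpt N u‖ ≤ 1 := by
      rw [norm_zpt, Real.exp_le_one_iff, neg_nonpos]
      positivity
    refine (disk_bound (differentiable_pw N x) (fun θ => ?_) hz).trans
      (le_mul_of_one_le_right (by positivity) he)
    rw [← lit_eq_pw]
    exact hb θ
  · have hne : zpt N u ≠ 0 := exp_ne_zero _
    have hz : ‖(zpt N u)⁻¹‖ ≤ 1 := by
      rw [norm_inv, norm_zpt, ← Real.exp_neg, neg_neg, Real.exp_le_one_iff]
      exact div_nonpos_of_nonpos_of_nonneg hu.le (Nat.cast_nonneg N)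
    have h1 : ‖pw N (rev N x) (zpt N u)⁻¹‖ ≤ 2 * √(N : ℝ) := by
      refine disk_bound (differentiable_pw N _) (fun θ => ?_) hz
      rw [← lit_eq_pw, norm_lit_rev]
      exact hb _
    have h2 : pw N x (zpt N u) = zpt N u ^ (N - 1) * pw N (rev N x) (zpt N u)⁻¹ := by
      rw [pw_rev N x (inv_ne_zero hne), inv_inv, ← mul_assoc, inv_pow,
        mul_inv_cancel₀ (pow_ne_zero _ hne), one_mul]
    rw [h2, norm_mul, norm_pow, mul_comm (2 * √(N : ℝ))]
    refine mul_le_mul ?_ h1 (norm_nonneg _) (Real.exp_pos _).le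
    rw [norm_zpt, abs_of_neg hu, ← neg_div]
    exact norm_pow_le_exp (by linarith)

lemma Flat.near_half (h : Flat N c x) (hN : 0 < N) (hc0 : 0 ≤ c) (hc : c ≤ 1) {u : ℂ}
    (hu : 0 ≤ u.im) : ‖ent N N x u * ent N N x (-u) - 1‖ ≤ 3 * c * Real.exp |u.im| := by
  have hNr : (0 : ℝ) < N := by exact_mod_cast hN
  set q : ℂ → ℂ := fun z => pw N x z * pw N (rev N x) z - (N : ℂ) * z ^ (N - 1) with hq
  have hqd : Differentiable ℂ q :=
    ((differentiable_pw N x).mul (differentiable_pw N _)).sub (by fun_prop)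
  have hcirc : ∀ θ : ℝ, ‖q (exp ((θ : ℂ) * I))‖ ≤ 3 * c * N := by
    intro θ
    set e := exp ((θ : ℂ) * I) with he
    have he1 : ‖e‖ = 1 := norm_exp_ofReal_mul_I θ
    have e2 : pw N x e * pw N x e⁻¹ = ((‖lit N x θ‖ ^ 2 : ℝ) : ℂ) := by
      rw [Complex.inv_eq_conj he1, ← conj_pw, mul_conj', lit_eq_pw]
      push_cast
      rfl
    have : q e = e ^ (N - 1) * (((‖lit N x θ‖ ^ 2 - N : ℝ)) : ℂ) := by
      rw [hq]
      simp only
      rw [pw_rev N x (exp_ne_zero _), ← he, mul_left_comm, e2]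
      push_cast
      ring
    rw [this, norm_mul, norm_pow, he1, one_pow, one_mul, norm_real, Real.norm_eq_abs, abs_le]
    have hsq : √(N : ℝ) ^ 2 = N := Real.sq_sqrt hNr.le
    obtain ⟨h1, h2⟩ := h θ
    constructor
    · have := mul_self_le_mul_self (mul_nonneg (by linarith) (Real.sqrt_nonneg _)) h1
      nlinarith [mul_nonneg (mul_nonneg hc0 (by linarith : (0 : ℝ) ≤ 1 - c)) hNr.le,
        mul_nonneg hc0 hNr.le, mul_nonneg (sq_nonneg c) hNr.le]
    · have := mul_self_le_mul_self (norm_nonneg _) h2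
      nlinarith [mul_nonneg (mul_nonneg hc0 (by linarith : (0 : ℝ) ≤ 1 - c)) hNr.le,
        mul_nonneg hc0 hNr.le]
  have hne : zpt N u ≠ 0 := exp_ne_zero _
  have hz : ‖zpt N u‖ ≤ 1 := by
    rw [norm_zpt, Real.exp_le_one_iff, neg_nonpos]
    positivity
  have hsN : (√(N : ℝ) : ℂ) ^ 2 = (N : ℂ) := by
    rw [← ofReal_pow, Real.sq_sqrt hNr.le, ofReal_natCast]
  have hNc : (N : ℂ) ≠ 0 := by exact_mod_cast hN.ne'
  have heq : ent N N x u * ent N N x (-u) - 1 = q (zpt N u) / (zpt N u ^ (N - 1) * N) := by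
    rw [hq]
    simp only [ent]
    rw [zpt_neg, pw_rev N x hne, div_mul_div_comm, ← sq (√(N : ℝ) : ℂ), hsN]
    field_simp
  rw [heq, norm_div, norm_mul, norm_pow, Complex.norm_natCast, norm_zpt]
  have hb := disk_bound hqd hcirc hz
  rw [div_le_iff₀ (by positivity)]
  refine hb.trans ?_
  have h1 : 1 ≤ Real.exp |u.im| * Real.exp (-(u.im / N)) ^ (N - 1) := by
    rw [Real.exp_neg, inv_pow, ← div_eq_mul_inv, one_le_div (by positivity), abs_of_nonneg hu]
    exact norm_pow_le_exp hu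
  calc 3 * c * (N : ℝ) = 3 * c * N * 1 := (mul_one _).symm
    _ ≤ 3 * c * N * (Real.exp |u.im| * Real.exp (-(u.im / N)) ^ (N - 1)) :=
        mul_le_mul_of_nonneg_left h1 (by positivity)
    _ = _ := by ring

lemma Flat.near_ent (h : Flat N c x) (hN : 0 < N) (hc0 : 0 ≤ c) (hc : c ≤ 1) (u : ℂ) :
    ‖ent N N x u * ent N N x (-u) - 1‖ ≤ 3 * c * Real.exp |u.im| := by
  rcases le_or_gt 0 u.im with hu | hu
  · exact h.near_half hN hc0 hc hu
  · have := h.near_half hN hc0 hc (u := -u) (by simp [hu.le])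
    rwa [neg_neg, mul_comm, neg_im, abs_neg] at this

/-- Smallness of `c` that makes `ent` flat on the strip of width `Y`. -/
lemma Flat.flatish (h : Flat N c x) (hN : 0 < N) (hc0 : 0 ≤ c) (hc : c ≤ 1) {Y : ℝ} (hY : 8 ≤ Y)
    (hcY : 3 * c * Real.exp Y ≤ 1 / 2) : Flatish (ent N N x) Y where
  diff := differentiable_ent N N x
  big := hY
  upper := h.norm_ent_le hN hc
  near u hu := by
    refine (h.near_ent hN hc0 hc u).trans (le_trans ?_ hcY)
    refine mul_le_mul_of_nonneg_left (Real.exp_le_exp.2 (le_of_lt hu)) (by positivity)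

lemma logd_ent (N : ℕ) (x : ℕ → ℝ) (u : ℂ) :
    logd (ent N N x) u = ent N N (wgt N x 1) u / ent N N x u := by
  have h := deriv_ent N N x 0 u
  rw [wgt_zero] at h
  rw [logd, h, ← mul_assoc]
  simp

lemma speed_eq (hN : 0 < N) (x : ℕ → ℝ) (θ : ℝ) :
    speed N x θ = (logd (ent N N x) (((N : ℝ) * θ : ℝ) : ℂ)).re := by
  have hs : (√(N : ℝ) : ℂ) ≠ 0 := by
    exact_mod_cast (Real.sqrt_pos.2 (by exact_mod_cast hN : (0 : ℝ) < N)).ne'
  rw [logd_ent, ent_real N N hN, ent_real N N hN, div_div_div_cancel_right₀ hs, speed,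
    ← Complex.div_natCast_re]
  congr 1
  rw [div_right_comm]
  congr 1
  simp only [lit, wgt, pow_one, Complex.ofReal_mul, Complex.ofReal_div, Complex.ofReal_natCast,
    sum_div]
  exact sum_congr rfl fun k _ => by ring

/-- On the real axis: modulus near one and logarithmic derivative nearly real. -/
lemma Flat.real_bounds (h : Flat N c x) (hN : 0 < N) (hc0 : 0 ≤ c) (hc : c ≤ 1 / 48) (r : ℝ) :
    |‖ent N N x r‖ ^ 2 - 1| ≤ 3 * c ∧ |(logd (ent N N x) r).im| ≤ 24 * c := by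
  set F := ent N N x with hF
  have hneg : F (-(r : ℂ)) = conj (F r) := ent_neg_real N N x r
  have hprod : F r * F (-(r : ℂ)) = ((‖F r‖ ^ 2 : ℝ) : ℂ) := by
    rw [hneg, mul_conj']; push_cast; rfl
  have h1 : |‖F r‖ ^ 2 - 1| ≤ 3 * c := by
    have := h.near_ent hN hc0 (by linarith) (r : ℂ)
    rw [← hF, hprod, ofReal_im, abs_zero, Real.exp_zero, mul_one] at this
    rw [← Real.norm_eq_abs, ← norm_real]
    push_cast
    push_cast at this
    exact this
  refine ⟨h1, ?_⟩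
  have hd : Differentiable ℂ F := differentiable_ent N N x
  have hne : F r ≠ 0 := by
    intro h0
    rw [h0, norm_zero] at h1
    norm_num at h1
    linarith
  have hG : ∀ u ∈ strip 2, ‖F u * F (-u) - 1‖ ≤ 24 * c := by
    intro u hu
    refine (h.near_ent hN hc0 (by linarith) u).trans ?_
    have : Real.exp |u.im| ≤ 8 := by
      refine (Real.exp_le_exp.2 (le_of_lt hu)).trans ?_
      rw [show (2 : ℝ) = 1 + 1 by norm_num, Real.exp_add]
      nlinarith [Real.exp_one_lt_d9, Real.exp_pos 1]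
    nlinarith
  have hGd : Differentiable ℂ (fun u => F u * F (-u) - 1) := by fun_prop
  have h2 := norm_deriv_strip (V := 1) (W := 2) (by norm_num) hGd.differentiableOn hG
    (u := (r : ℂ)) (show |((r : ℂ)).im| < 1 by simp)
  have h3 : HasDerivAt (fun u => F u * F (-u) - 1)
      (deriv F r * F (-(r : ℂ)) + F r * (deriv F (-(r : ℂ)) * (-1))) (r : ℂ) :=
    ((hd _).hasDerivAt.mul ((hd _).hasDerivAt.comp (r : ℂ) (hasDerivAt_neg' (r : ℂ)))).sub_const 1
  rw [h3.deriv] at h2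
  set w := logd F r with hw
  have hd1 : deriv F r = I * w * F r := by
    have := deriv_ent N N x 0 (r : ℂ)
    rw [wgt_zero] at this
    rw [hw, logd_ent, this, mul_assoc, div_mul_cancel₀ _ hne]
  have hd2 : deriv F (-(r : ℂ)) = I * conj w * conj (F r) := by
    have := deriv_ent N N x 0 (-(r : ℂ))
    rw [wgt_zero] at this
    rw [hw, logd_ent, this, map_div₀, ← ent_neg_real, mul_assoc,
      div_mul_cancel₀ _ (by simpa using hne)]
  rw [hd1, hd2, hneg] at h2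
  have he : I * w * F r * conj (F r) + F r * (I * conj w * conj (F r) * (-1)) =
      ((-2 * w.im * ‖F r‖ ^ 2 : ℝ) : ℂ) := by
    have h5 := sub_conj w
    have h6 := mul_conj' (F r)
    push_cast at h5 ⊢
    calc I * w * F r * conj (F r) + F r * (I * conj w * conj (F r) * (-1))
        = I * (w - conj w) * (F r * conj (F r)) := by ring
      _ = _ := by
          rw [h5, h6]
          linear_combination (2 * (w.im : ℂ) * (‖F r‖ : ℂ) ^ 2) * I_mul_I
  rw [he, norm_real, Real.norm_eq_abs, abs_mul, abs_mul, abs_neg, abs_two,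
    abs_of_nonneg (sq_nonneg ‖F r‖)] at h2
  have := (abs_le.1 h1).1
  nlinarith [abs_nonneg w.im]

lemma norm_pw_le (m : ℕ) {cc : ℕ → ℝ} (hcc : ∀ k, |cc k| ≤ 1) {z : ℂ} {B : ℝ} (hB : 1 ≤ B)
    (hz : ‖z‖ ^ m ≤ B) : ‖pw m cc z‖ ≤ m * B := by
  have : ∀ k ∈ range m, ‖(cc k : ℂ) * z ^ k‖ ≤ B := by
    intro k hk
    rw [norm_mul, norm_real, norm_pow, Real.norm_eq_abs]
    refine le_trans (mul_le_mul (hcc k) le_rfl (by positivity) (by norm_num)) ?_
    rw [one_mul]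
    rcases le_total ‖z‖ 1 with h | h
    · exact (pow_le_one₀ (norm_nonneg _) h).trans hB
    · exact (pow_le_pow_right₀ h (mem_range.1 hk).le).trans hz
  refine (norm_sum_le_of_le _ this).trans (le_of_eq ?_)
  simp

lemma norm_lit_le (m : ℕ) {cc : ℕ → ℝ} (hcc : ∀ k, |cc k| ≤ 1) (θ : ℝ) : ‖lit m cc θ‖ ≤ m := by
  rw [lit_eq_pw]
  simpa using norm_pw_le m hcc le_rfl (B := 1) (z := exp ((θ : ℂ) * I))
    (by rw [norm_exp_ofReal_mul_I, one_pow])

lemma sq_conv_le {m Q : ℕ} (h : Flat N c x) (hc : c ≤ 1) {cc : ℕ → ℝ} (hcc : ∀ k, |cc k| ≤ 1)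
    (hQ : m + N ≤ Q) (hQ0 : 0 < Q) :
    ∑ k ∈ range (m + N), conv m cc (trunc N x) k ^ 2 ≤ 4 * (m : ℝ) ^ 2 * N := by
  have hp := parseval_norm hQ (conv m cc (trunc N x))
  have hb : ∀ j ∈ range Q, ‖lit (m + N) (conv m cc (trunc N x)) (node Q j)‖ ^ 2
      ≤ 4 * (m : ℝ) ^ 2 * N := by
    intro j _
    rw [← lit_mul, norm_mul, mul_pow]
    have h1 : ‖lit m cc (node Q j)‖ ^ 2 ≤ (m : ℝ) ^ 2 :=
      pow_le_pow_left₀ (norm_nonneg _) (norm_lit_le m hcc _) 2
    have h2 : ‖lit N x (node Q j)‖ ^ 2 ≤ 4 * N := by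
      have := pow_le_pow_left₀ (norm_nonneg _) (((h.mono hc) (node Q j)).2) 2
      rw [mul_pow, Real.sq_sqrt (Nat.cast_nonneg N)] at this
      linarith
    nlinarith [sq_nonneg ‖lit m cc (node Q j)‖, sq_nonneg ‖lit N x (node Q j)‖]
  have := (sum_le_card_nsmul _ _ _ hb)
  rw [hp, card_range, nsmul_eq_mul] at this
  exact le_of_mul_le_mul_left this (by exact_mod_cast hQ0)

/-- The comparison holds for a test function `q`. -/
def Matches (m : ℕ) (q : ℝ → ℝ) : Prop :=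
  ∀ τ : ℝ, 0 < τ → ∃ c0 : ℝ, 0 < c0 ∧ ∃ N0 : ℕ, ∀ N : ℕ, N0 ≤ N → ∀ x : ℕ → ℝ, Flat N c0 x →
    ∀ cc : ℕ → ℝ, (∀ k, |cc k| ≤ 1) → ∀ Q : ℕ, m + N ≤ Q →
      |(∑ j ∈ range Q, ‖lit m cc (node Q j)‖ ^ 2 * q (speed N x (node Q j))) / Q -
        (∑ k ∈ range (m + N), conv m cc (trunc N x) k ^ 2 * q ((k : ℝ) / N)) / N| ≤ τ

lemma pow_sub_real_le (w : ℂ) {B δ : ℝ} (hw : ‖w‖ ≤ B) (hB : 1 ≤ B) (hd : |w.im| ≤ δ) (i : ℕ) :
    ‖w ^ i - ((w.re ^ i : ℝ) : ℂ)‖ ≤ i * B ^ i * δ := by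
  induction i with
  | zero => simp
  | succ i ih =>
    have hd0 : 0 ≤ δ := le_trans (abs_nonneg _) hd
    have e : w ^ (i + 1) - ((w.re ^ (i + 1) : ℝ) : ℂ) =
        w * (w ^ i - ((w.re ^ i : ℝ) : ℂ)) + ((w.re ^ i : ℝ) : ℂ) * (w - (w.re : ℂ)) := by
      push_cast; ring
    rw [e]
    refine (norm_add_le _ _).trans ?_
    rw [norm_mul, norm_mul, norm_real, Real.norm_eq_abs, abs_pow]
    have h1 : ‖w - (w.re : ℂ)‖ = |w.im| := by
      rw [show w - (w.re : ℂ) = (w.im : ℂ) * I by apply Complex.ext <;> simp]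
      simp
    rw [h1]
    have h2 : |w.re| ^ i ≤ B ^ (i + 1) :=
      (pow_le_pow_left₀ (abs_nonneg _) ((abs_re_le_norm w).trans hw) i).trans
        (pow_le_pow_right₀ hB (Nat.le_succ i))
    calc ‖w‖ * ‖w ^ i - ((w.re ^ i : ℝ) : ℂ)‖ + |w.re| ^ i * |w.im|
        ≤ B * (i * B ^ i * δ) + B ^ (i + 1) * δ :=
          add_le_add (mul_le_mul hw ih (norm_nonneg _) (by linarith))
            (mul_le_mul h2 hd (abs_nonneg _) (by positivity))
      _ = ((i + 1 : ℕ) : ℝ) * B ^ (i + 1) * δ := by push_cast; ring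

lemma pointwise {m i : ℕ} {Y : ℝ} (h : Flat N c x) (hN : 0 < N) (hc0 : 0 ≤ c) (hc : c ≤ 1 / 48)
    (hY : 8 ≤ Y) (hYi : 2 ^ (i + 2) ≤ Y) (hcY : 3 * c * Real.exp Y ≤ 1 / 2)
    (hmY : (m : ℝ) * Y ≤ N) {cc : ℕ → ℝ} (hcc : ∀ k, |cc k| ≤ 1) (θ : ℝ) :
    |(conj (lit (m + N) (conv m cc (trunc N x)) θ) *
        lit (m + N) (wgt N (conv m cc (trunc N x)) i) θ).re / N -
      ‖lit m cc θ‖ ^ 2 * speed N x θ ^ i| ≤
      (3 * (m : ℝ)) ^ 2 * (4 * (4 * 50 ^ i) / Y + (3 * 24 ^ i + 24 * i * 24 ^ i) * c) := by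
  set y := conv m cc (trunc N x) with hy
  set F := ent N N x with hF
  set p : ℂ → ℂ := fun u => pw m cc (zpt N u) with hp
  have hF' : Flatish F Y := h.flatish hN hc0 (by linarith) hY hcY
  have hNr : (0 : ℝ) < N := by exact_mod_cast hN
  have hpd : Differentiable ℂ p := by
    have : Differentiable ℂ (zpt N) := by unfold zpt; fun_prop
    exact (differentiable_pw m cc).comp this
  have hpA : ∀ u ∈ strip Y, ‖p u‖ ≤ 3 * m := by
    intro u hu
    rw [mul_comm (3 : ℝ)]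
    refine norm_pw_le m hcc (by norm_num) ?_
    rw [norm_zpt, ← Real.exp_nat_mul]
    have h1 : (m : ℝ) * -(u.im / N) ≤ 1 := by
      rw [mul_neg, ← neg_mul, mul_div, div_le_one hNr]
      calc -(m : ℝ) * u.im = (m : ℝ) * (-u.im) := by ring
        _ ≤ m * Y := mul_le_mul_of_nonneg_left
            ((neg_le_abs _).trans (le_of_lt hu)) (Nat.cast_nonneg m)
        _ ≤ N := hmY
    exact (Real.exp_le_exp.2 h1).trans (by linarith [Real.exp_one_lt_d9])
  set S : ℕ → ℂ → ℂ := fun j => ent N (m + N) (wgt N y j) with hS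
  have hS0 : ∀ u, S 0 u = p u * F u := by
    intro u
    simp only [hS, wgt_zero, ent, hp, hF, hy]
    rw [← pw_mul]
    ring
  have hS1 : ∀ j u, S (j + 1) u = -I * deriv (S j) u := by
    intro j u
    simp only [hS]
    rw [deriv_ent, ← mul_assoc]
    simp
  set r : ℂ := (((N : ℝ) * θ : ℝ) : ℂ) with hr
  have hrY : r ∈ strip (Y / 2 ^ (i + 1)) := by
    show |r.im| < _
    rw [hr, ofReal_im, abs_zero]
    positivity
  have hrY' : r ∈ strip Y := by
    show |r.im| < _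
    rw [hr, ofReal_im, abs_zero]
    linarith
  have hSi := hF'.family_eq hpd hpA hS0 hS1 i hYi r hrY
  obtain ⟨-, -, herr⟩ := hF'.iter_bound hpd hpA i hYi
  have he := herr r hrY
  set a := iter F p i r
  set w := logd F r with hw
  obtain ⟨hmod, him⟩ := h.real_bounds hN hc0 hc ((N : ℝ) * θ)
  rw [← hF, ← hr] at hmod him
  rw [← hw] at him
  have hwB : ‖w‖ ≤ 24 := hF'.norm_logd_le (by rw [hr, ofReal_im, abs_zero]; linarith)
  have ht : speed N x θ = w.re := speed_eq hN x θ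
  have hsN : (√(N : ℝ) : ℂ) ^ 2 = (N : ℂ) := by
    rw [← ofReal_pow, Real.sq_sqrt hNr.le, ofReal_natCast]
  have hL : (conj (lit (m + N) y θ) * lit (m + N) (wgt N y i) θ).re / N
      = (conj (S 0 r) * S i r).re := by
    simp only [hS, wgt_zero, hr, ent_real N _ hN, map_div₀, conj_ofReal]
    rw [div_mul_div_comm, ← sq, hsN, Complex.div_natCast_re]
  have hpv : p r = lit m cc θ := by simp only [hp, hr, zpt_real N hN, lit_eq_pw]
  rw [hL, hS0, hSi, ht, ← hpv]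
  have key : ‖conj (p r * F r) * (a * F r) - ((‖p r‖ ^ 2 * w.re ^ i : ℝ) : ℂ)‖ ≤
      (3 * (m : ℝ)) ^ 2 * (4 * (4 * 50 ^ i) / Y + (3 * 24 ^ i + 24 * i * 24 ^ i) * c) := by
    have hp3 := hpA r hrY'
    have hF4 : ‖F r‖ ^ 2 ≤ 4 := by have := (abs_le.1 hmod).2; linarith
    have e1 : conj (p r) * p r = ((‖p r‖ ^ 2 : ℝ) : ℂ) := by rw [conj_mul']; push_cast; rfl
    have e2 : conj (F r) * F r = ((‖F r‖ ^ 2 : ℝ) : ℂ) := by rw [conj_mul']; push_cast; rfl
    have e : conj (p r * F r) * (a * F r) - ((‖p r‖ ^ 2 * w.re ^ i : ℝ) : ℂ) =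
        conj (p r) * (a - w ^ i * p r) * ((‖F r‖ ^ 2 : ℝ) : ℂ) +
          ((‖p r‖ ^ 2 : ℝ) : ℂ) * (w ^ i * (((‖F r‖ ^ 2 : ℝ) : ℂ) - 1) +
            (w ^ i - ((w.re ^ i : ℝ) : ℂ))) := by
      rw [← e1, ← e2, map_mul]
      push_cast
      have e1' := e1
      push_cast at e1'
      rw [← e1']
      ring
    rw [e]
    refine (norm_add_le _ _).trans ?_
    rw [norm_mul, norm_mul, norm_mul, RCLike.norm_conj, norm_real, norm_real, Real.norm_eq_abs,
      Real.norm_eq_abs, abs_of_nonneg (sq_nonneg _), abs_of_nonneg (sq_nonneg _)]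
    have h2 : ‖w ^ i * (((‖F r‖ ^ 2 : ℝ) : ℂ) - 1) + (w ^ i - ((w.re ^ i : ℝ) : ℂ))‖
        ≤ 24 ^ i * (3 * c) + i * 24 ^ i * (24 * c) := by
      refine (norm_add_le _ _).trans (add_le_add ?_
        (pow_sub_real_le w hwB (by norm_num) him i))
      rw [norm_mul, norm_pow, ← ofReal_one, ← ofReal_sub, norm_real, Real.norm_eq_abs]
      exact mul_le_mul (pow_le_pow_left₀ (norm_nonneg _) hwB i) hmod (abs_nonneg _) (by positivity)
    calc ‖p r‖ * ‖a - w ^ i * p r‖ * ‖F r‖ ^ 2 +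
          ‖p r‖ ^ 2 * ‖w ^ i * (((‖F r‖ ^ 2 : ℝ) : ℂ) - 1) + (w ^ i - ((w.re ^ i : ℝ) : ℂ))‖
        ≤ (3 * (m : ℝ)) * ((3 * m) * (4 * 50 ^ i) / Y) * 4 +
          (3 * (m : ℝ)) ^ 2 * (24 ^ i * (3 * c) + i * 24 ^ i * (24 * c)) := by gcongr
      _ = _ := by ring
  refine le_trans ?_ key
  rw [← Real.norm_eq_abs]
  have := abs_re_le_norm (conj (p r * F r) * (a * F r) - ((‖p r‖ ^ 2 * w.re ^ i : ℝ) : ℂ))
  rw [sub_re, ofReal_re] at this
  exact this

lemma matches_pow (m i : ℕ) : Matches m (fun t => t ^ i) := by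
  intro τ hτ
  set A : ℝ := (3 * (m : ℝ)) ^ 2
  set Y : ℝ := max (max 8 (2 ^ (i + 2))) ((A * (4 * (4 * 50 ^ i)) + 1) * 2 / τ) with hY
  set B : ℝ := A * (3 * 24 ^ i + 24 * i * 24 ^ i) + 1 with hB
  have hB0 : 0 < B := by positivity
  set c0 : ℝ := min (min (1 / 48) (1 / (6 * Real.exp Y))) (τ / (2 * B)) with hc0
  have hY8 : 8 ≤ Y := le_trans (le_max_left _ _) (le_max_left _ _)
  have hYi : (2 : ℝ) ^ (i + 2) ≤ Y := le_trans (le_max_right _ _) (le_max_left _ _)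
  have hYτ : (A * (4 * (4 * 50 ^ i)) + 1) * 2 / τ ≤ Y := le_max_right _ _
  have hc00 : 0 < c0 := lt_min (lt_min (by norm_num) (by positivity)) (by positivity)
  refine ⟨c0, hc00, max 1 ⌈(m : ℝ) * Y⌉₊, fun N hN x hx cc hcc Q hQ => ?_⟩
  have hN1 : 0 < N := lt_of_lt_of_le one_pos (le_trans (le_max_left _ _) hN)
  have hmY : (m : ℝ) * Y ≤ N :=
    le_trans (Nat.le_ceil _) (by exact_mod_cast le_trans (le_max_right _ _) hN)
  have hQ0 : (0 : ℝ) < Q := by exact_mod_cast (by omega : 0 < Q)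
  have hc48 : c0 ≤ 1 / 48 := le_trans (min_le_left _ _) (min_le_left _ _)
  have hcY : 3 * c0 * Real.exp Y ≤ 1 / 2 := by
    have : c0 ≤ 1 / (6 * Real.exp Y) := le_trans (min_le_left _ _) (min_le_right _ _)
    rw [le_div_iff₀ (by positivity)] at this
    linarith
  set y := conv m cc (trunc N x)
  have hsum : (∑ k ∈ range (m + N), y k ^ 2 * ((k : ℝ) / N) ^ i) / N =
      (∑ j ∈ range Q, (conj (lit (m + N) y (node Q j)) *
        lit (m + N) (wgt N y i) (node Q j)).re / N) / Q := by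
    rw [← sum_div, ← Complex.re_sum, parseval hQ]
    simp only [Complex.mul_re, natCast_re, natCast_im, ofReal_re, ofReal_im, mul_zero, sub_zero]
    rw [div_div, mul_comm (N : ℝ) Q, mul_div_mul_left _ _ hQ0.ne']
    congr 1
    refine sum_congr rfl fun k _ => ?_
    simp only [wgt]
    ring
  rw [hsum, ← sub_div, ← sum_sub_distrib, abs_div, abs_of_pos hQ0, div_le_iff₀ hQ0]
  refine (abs_sum_le_sum_abs _ _).trans ((sum_le_card_nsmul _ _ τ ?_).trans ?_)
  · intro j _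
    rw [abs_sub_comm]
    refine (pointwise hx hN1 hc00.le hc48 hY8 hYi hcY hmY hcc _).trans ?_
    have h1 : A * (4 * (4 * 50 ^ i)) / Y ≤ τ / 2 := by
      rw [div_le_iff₀ (by linarith)]
      rw [div_le_iff₀ hτ] at hYτ
      linarith
    have h2 : A * (3 * 24 ^ i + 24 * i * 24 ^ i) * c0 ≤ τ / 2 := by
      have h3 : c0 ≤ τ / (2 * B) := min_le_right _ _
      rw [le_div_iff₀ (by positivity)] at h3
      nlinarith
    calc A * (4 * (4 * 50 ^ i) / Y + (3 * 24 ^ i + 24 * i * 24 ^ i) * c0)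
        = A * (4 * (4 * 50 ^ i)) / Y + A * (3 * 24 ^ i + 24 * i * 24 ^ i) * c0 := by ring
      _ ≤ τ := by linarith
  · rw [card_range, nsmul_eq_mul, mul_comm]

lemma matches_poly (m : ℕ) (q : Polynomial ℝ) : Matches m (fun t => q.eval t) := by
  induction q using Polynomial.induction_on' with
  | add p q hp hq =>
    intro τ hτ
    obtain ⟨c1, hc1, N1, H1⟩ := hp (τ / 2) (by positivity)
    obtain ⟨c2, hc2, N2, H2⟩ := hq (τ / 2) (by positivity)
    refine ⟨min c1 c2, lt_min hc1 hc2, max N1 N2, fun N hN x hx cc hcc Q hQ => ?_⟩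
    have a := H1 N (le_trans (le_max_left _ _) hN) x (hx.mono (min_le_left _ _)) cc hcc Q hQ
    have b := H2 N (le_trans (le_max_right _ _) hN) x (hx.mono (min_le_right _ _)) cc hcc Q hQ
    simp only [Polynomial.eval_add, mul_add, sum_add_distrib, add_div]
    rw [add_sub_add_comm]
    exact (abs_add_le _ _).trans (by linarith)
  | monomial i r =>
    intro τ hτ
    obtain ⟨c0, hc0, N0, H⟩ := matches_pow m i (τ / (|r| + 1)) (by positivity)
    refine ⟨c0, hc0, N0, fun N hN x hx cc hcc Q hQ => ?_⟩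
    have a := H N hN x hx cc hcc Q hQ
    simp only [Polynomial.eval_monomial, mul_left_comm _ r, ← mul_sum, mul_div_assoc]
    rw [← mul_sub, abs_mul]
    refine (mul_le_mul_of_nonneg_left a (abs_nonneg r)).trans ?_
    rw [mul_div, div_le_iff₀ (by positivity)]
    nlinarith

/-- The comparison holds for every continuous test function. -/
lemma matches_continuous (m : ℕ) {ψ : ℝ → ℝ} (hψ : Continuous ψ) : Matches m ψ := by
  intro τ hτ
  set σ : ℝ := τ / (2 * (5 * (m : ℝ) ^ 2 + 1)) with hσ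
  obtain ⟨q, hq⟩ := exists_polynomial_near_of_continuousOn (-25) 25 ψ hψ.continuousOn σ
    (by positivity)
  obtain ⟨c0, hc0, N0, H⟩ := matches_poly m q (τ / 2) (by positivity)
  set c1 : ℝ := min c0 (min (1 / 48) (1 / (6 * Real.exp 8))) with hc1
  have hc10 : 0 < c1 := lt_min hc0 (lt_min (by norm_num) (by positivity))
  refine ⟨c1, hc10, max N0 (m + 1), fun N hN x hx cc hcc Q hQ => ?_⟩
  have hN0 : N0 ≤ N := le_trans (le_max_left _ _) hN
  have hmN : m + 1 ≤ N := le_trans (le_max_right _ _) hN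
  have a := H N hN0 x (hx.mono (min_le_left _ _)) cc hcc Q hQ
  have hNr : (0 : ℝ) < N := by exact_mod_cast (by omega : 0 < N)
  have hQ0 : (0 : ℝ) < Q := by exact_mod_cast (by omega : 0 < Q)
  have hF : Flatish (ent N N x) 8 := by
    refine hx.flatish (by omega) hc10.le ?_ le_rfl ?_
    · linarith [min_le_right c0 (min (1 / 48) (1 / (6 * Real.exp 8))),
        min_le_left (1 / 48 : ℝ) (1 / (6 * Real.exp 8))]
    · have : c1 ≤ 1 / (6 * Real.exp 8) := le_trans (min_le_right _ _) (min_le_right _ _)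
      rw [le_div_iff₀ (by positivity)] at this
      linarith
  have hsp : ∀ θ, |speed N x θ| ≤ 25 := by
    intro θ
    rw [speed_eq (by omega)]
    refine (abs_re_le_norm _).trans ((hF.norm_logd_le ?_).trans (by norm_num))
    norm_num
  have hd1 : |(∑ j ∈ range Q, ‖lit m cc (node Q j)‖ ^ 2 * ψ (speed N x (node Q j))) / Q -
      (∑ j ∈ range Q, ‖lit m cc (node Q j)‖ ^ 2 * q.eval (speed N x (node Q j))) / Q| ≤
      (m : ℝ) ^ 2 * σ := by
    rw [← sub_div, ← sum_sub_distrib, abs_div, abs_of_pos hQ0, div_le_iff₀ hQ0]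
    refine (abs_sum_le_sum_abs _ _).trans ((sum_le_card_nsmul _ _ ((m : ℝ) ^ 2 * σ) ?_).trans ?_)
    · intro j _
      rw [← mul_sub, abs_mul, abs_of_nonneg (sq_nonneg _), abs_sub_comm]
      exact mul_le_mul (pow_le_pow_left₀ (norm_nonneg _) (norm_lit_le m hcc _) 2)
        (hq _ (Set.mem_Icc.2 (abs_le.1 (hsp _)))).le (abs_nonneg _) (sq_nonneg _)
    · rw [card_range, nsmul_eq_mul, mul_comm]
  have hd2 : |(∑ k ∈ range (m + N), conv m cc (trunc N x) k ^ 2 * q.eval ((k : ℝ) / N)) / N -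
      (∑ k ∈ range (m + N), conv m cc (trunc N x) k ^ 2 * ψ ((k : ℝ) / N)) / N| ≤
      4 * (m : ℝ) ^ 2 * σ := by
    rw [← sub_div, ← sum_sub_distrib, abs_div, abs_of_pos hNr, div_le_iff₀ hNr]
    refine (abs_sum_le_sum_abs _ _).trans ((sum_le_sum (g := fun k =>
      conv m cc (trunc N x) k ^ 2 * σ) ?_).trans ?_)
    · intro k hk
      rw [← mul_sub, abs_mul, abs_of_nonneg (sq_nonneg _)]
      refine mul_le_mul_of_nonneg_left (hq _ ?_).le (sq_nonneg _)
      have hk' : (k : ℝ) < m + N := by exact_mod_cast mem_range.1 hk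
      have hm' : (m : ℝ) ≤ N := by exact_mod_cast (by omega : m ≤ N)
      constructor
      · have : (0 : ℝ) ≤ (k : ℝ) / N := by positivity
        linarith
      · rw [div_le_iff₀ hNr]; linarith
    · rw [← sum_mul]
      have := sq_conv_le hx (le_trans (min_le_right _ _) (le_trans (min_le_left _ _) (by norm_num)))
        hcc hQ (by omega)
      calc _ ≤ 4 * (m : ℝ) ^ 2 * N * σ := mul_le_mul_of_nonneg_right this (by positivity)
        _ = _ := by ring
  have hb : (m : ℝ) ^ 2 * σ + 4 * (m : ℝ) ^ 2 * σ ≤ τ / 2 := by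
    rw [show (m : ℝ) ^ 2 * σ + 4 * (m : ℝ) ^ 2 * σ = 5 * (m : ℝ) ^ 2 * τ / (2 * (5 * (m : ℝ) ^ 2 + 1))
      by rw [hσ]; ring, div_le_iff₀ (by positivity)]
    nlinarith
  rw [abs_le] at a hd1 hd2 ⊢
  constructor <;> linarith

end Vale.Agent.P110
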