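import Vale.Agent.P110.Defs

/-!
# P110: exponential sums on a finite grid, Parseval, convolution
-/

namespace Vale.Agent.P110

open Complex Finset
open scoped Real ComplexConjugate

/-- The `j`-th point of the grid with `Q` points on `[0, 2π)`. -/
noncomputable def node (Q j : ℕ) : ℝ := 2 * π * j / Q

/-- Coefficients of the product of `c` (indices `< m`) and `X`. -/
def conv (m : ℕ) (c X : ℕ → ℝ) (n : ℕ) : ℝ :=
  ∑ j ∈ range m, if j ≤ n then c j * X (n - j) else 0

/-- Extension by zero of the first `N` coefficients. -/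
def trunc (N : ℕ) (x : ℕ → ℝ) (n : ℕ) : ℝ := if n < N then x n else 0

lemma node_pow (Q j k : ℕ) :
    exp (((k : ℝ) * node Q j : ℝ) * I) = exp (2 * π * I / Q) ^ (k * j) := by
  rw [← exp_nat_mul]
  unfold node
  push_cast
  congr 1
  ring

lemma sum_exp_eq {Q k l : ℕ} (hk : k < Q) (hl : l < Q) :
    (∑ j ∈ range Q, conj (exp (((k : ℝ) * node Q j : ℝ) * I)) * exp (((l : ℝ) * node Q j : ℝ) * I))
      = if k = l then (Q : ℂ) else 0 := by
  have hQ : Q ≠ 0 := by omega
  set ω := exp (2 * π * I / Q) with hω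
  have hω1 : IsPrimitiveRoot ω Q := Complex.isPrimitiveRoot_exp Q hQ
  have hn : ‖ω‖ = 1 := hω1.norm'_eq_one hQ
  have hne : ω ≠ 0 := hω1.ne_zero hQ
  have hterm : ∀ j, conj (exp (((k : ℝ) * node Q j : ℝ) * I)) *
      exp (((l : ℝ) * node Q j : ℝ) * I) = (ω ^ l / ω ^ k) ^ j := by
    intro j
    rw [node_pow, node_pow, ← hω, map_pow, ← Complex.inv_eq_conj hn, inv_pow, div_pow, ← pow_mul,
      ← pow_mul]
    ring
  simp only [hterm]
  by_cases h : k = l
  · subst h
    simp [hne]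
  · rw [if_neg h]
    have h1 : ω ^ l / ω ^ k ≠ 1 := by
      intro h1
      rw [div_eq_one_iff_eq (pow_ne_zero _ hne)] at h1
      exact h (hω1.pow_inj hk hl h1.symm)
    rw [geom_sum_eq h1, div_pow, ← pow_mul, ← pow_mul, mul_comm l, mul_comm k, pow_mul, pow_mul,
      hω1.pow_eq_one]
    simp

lemma parseval {Q n : ℕ} (hn : n ≤ Q) (a b : ℕ → ℝ) :
    (∑ j ∈ range Q, conj (lit n a (node Q j)) * lit n b (node Q j))
      = (Q : ℂ) * ((∑ k ∈ range n, a k * b k : ℝ) : ℂ) := by
  simp only [lit, map_sum, sum_mul_sum, map_mul, conj_ofReal]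
  rw [sum_comm, Complex.ofReal_sum, mul_sum]
  refine sum_congr rfl fun k hk => ?_
  rw [sum_comm]
  have : ∀ l ∈ range n, (∑ j ∈ range Q, (a k : ℂ) * conj (exp (((k : ℝ) * node Q j : ℝ) * I)) *
      ((b l : ℂ) * exp (((l : ℝ) * node Q j : ℝ) * I))) =
      if k = l then (Q : ℂ) * ((a k : ℂ) * b l) else 0 := by
    intro l hl
    have := sum_exp_eq (Q := Q) (lt_of_lt_of_le (mem_range.1 hk) hn)
      (lt_of_lt_of_le (mem_range.1 hl) hn)
    calc (∑ j ∈ range Q, (a k : ℂ) * conj (exp (((k : ℝ) * node Q j : ℝ) * I)) *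
          ((b l : ℂ) * exp (((l : ℝ) * node Q j : ℝ) * I)))
        = ((a k : ℂ) * b l) * ∑ j ∈ range Q,
            conj (exp (((k : ℝ) * node Q j : ℝ) * I)) * exp (((l : ℝ) * node Q j : ℝ) * I) := by
          rw [mul_sum]; exact sum_congr rfl fun j _ => by ring
      _ = _ := by rw [this]; split_ifs <;> ring
  rw [sum_congr rfl this, sum_ite_eq, if_pos hk, Complex.ofReal_mul]

lemma parseval_norm {Q n : ℕ} (hn : n ≤ Q) (a : ℕ → ℝ) :
    (∑ j ∈ range Q, ‖lit n a (node Q j)‖ ^ 2) = (Q : ℝ) * ∑ k ∈ range n, a k ^ 2 := by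
  have h := parseval hn a a
  simp only [conj_mul'] at h
  apply Complex.ofReal_injective
  push_cast
  push_cast at h
  rw [h]
  simp [sq]

/-- The polynomial with coefficients `a 0, …, a (n-1)`. -/
noncomputable def pw (n : ℕ) (a : ℕ → ℝ) (z : ℂ) : ℂ := ∑ k ∈ range n, (a k : ℂ) * z ^ k

lemma lit_eq_pw (n : ℕ) (a : ℕ → ℝ) (θ : ℝ) : lit n a θ = pw n a (exp ((θ : ℂ) * I)) := by
  refine sum_congr rfl fun k _ => ?_
  rw [← exp_nat_mul]
  push_cast
  ring_nf

lemma pw_mul (m N : ℕ) (c x : ℕ → ℝ) (z : ℂ) :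
    pw m c z * pw N x z = pw (m + N) (conv m c (trunc N x)) z := by
  simp only [pw, conv]
  rw [sum_mul_sum]
  simp only [Complex.ofReal_sum, sum_mul]
  rw [sum_comm (s := range (m + N))]
  refine sum_congr rfl fun j hj => ?_
  have hj' := mem_range.1 hj
  symm
  refine sum_bij_ne_zero (fun n _ _ => n - j) ?_ ?_ ?_ ?_
  · intro n _ hne
    simp only [trunc] at hne
    split_ifs at hne with h1 h2
    · exact mem_range.2 h2
    all_goals simp at hne
  · intro n _ hne n' _ hne' he
    have h1 : j ≤ n := by by_contra h; simp [h] at hne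
    have h2 : j ≤ n' := by by_contra h; simp [h] at hne'
    omega
  · intro k hk hne
    have hk' := mem_range.1 hk
    refine ⟨j + k, mem_range.2 (by omega), ?_, by omega⟩
    simp only [trunc, Nat.le_add_right, if_true, Nat.add_sub_cancel_left, if_pos hk']
    convert hne using 1
    push_cast
    ring
  · intro n _ hne
    simp only [trunc] at hne ⊢
    split_ifs at hne ⊢ with h1 h2
    · conv_lhs => rw [← Nat.add_sub_cancel' h1, pow_add]
      push_cast [Nat.add_sub_cancel_left]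
      ring
    all_goals simp at hne

lemma lit_mul (m N : ℕ) (c x : ℕ → ℝ) (θ : ℝ) :
    lit m c θ * lit N x θ = lit (m + N) (conv m c (trunc N x)) θ := by
  simp only [lit_eq_pw, pw_mul]

end Vale.Agent.P110
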